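import Vale.Agent.P219.SR.CoRigCenter
import Vale.Agent.P219.TPR.RigGeo
import Vale.Agent.P219.TPHR.EqBallH
import Vale.Agent.P219.TPHR.Recenter

/-! # Equality case, from the chord relations at one boundary point -/

open MeasureTheory Set Metric Filter Topology
open scoped ENNReal ContDiff

noncomputable section

namespace Vale.Agent.P219.CH

variable {n : ℕ}

/-- The chord relations at one boundary point, `K = 0`. -/
def HfrFlat (n : ℕ) : Prop :=
  ∀ (M : RiemMetric n) (e : Fin n → E n → E n) (he : TriangularFrame M e) (hs : SecLE M 0)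
    (F : GFlow M.g) (D : SmoothDomain n) (r : ℝ), 0 < r →
    riemVol M D.carrier = ENNReal.ofReal (modelVol n 0 r) →
    riemArea M D ≤ ENNReal.ofReal (modelArea n 0 r) →
    ∃ p N : E n, ‖N‖ = 1 ∧ ∀ q ∈ frontier D.carrier, q ≠ p →
      2 * r * inner ℝ ((toGeo M e he hs F).lg p q) N = ‖(toGeo M e he hs F).lg p q‖ ^ 2 ∧
        |((toGeo M e he hs F).T p ((toGeo M e he hs F).lg p q)).det| = 1

/-- The chord relations at one boundary point, `K = -1`. -/
def HfrHyp (n : ℕ) : Prop :=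
  ∀ (M : RiemMetric n) (e : Fin n → E n → E n) (he : TriangularFrame M e) (hs : SecLE M (-1))
    (F : GFlow M.g) (D : SmoothDomain n) (r : ℝ), 0 < r →
    riemVol M D.carrier = ENNReal.ofReal (modelVol n (-1) r) →
    riemArea M D ≤ ENNReal.ofReal (modelArea n (-1) r) →
    ∃ p N : E n, ‖N‖ = 1 ∧ ∀ q ∈ frontier D.carrier, q ≠ p →
      Real.sinh (‖(toGeo M e he (secLE_zero hs) F).lg p q‖ / 2) * Real.cosh r *
          ‖(toGeo M e he (secLE_zero hs) F).lg p q‖ =
        inner ℝ ((toGeo M e he (secLE_zero hs) F).lg p q) N *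
          (Real.cosh (‖(toGeo M e he (secLE_zero hs) F).lg p q‖ / 2) * Real.sinh r) ∧
      |((toGeo M e he (secLE_zero hs) F).T p ((toGeo M e he (secLE_zero hs) F).lg p q)).det| *
          ‖(toGeo M e he (secLE_zero hs) F).lg p q‖ ^ (n - 1) =
        Real.sinh ‖(toGeo M e he (secLE_zero hs) F).lg p q‖ ^ (n - 1)

theorem hfr_flat_phi (hn : 2 ≤ n) (M : RiemMetric n) (e : Fin n → E n → E n)
    (he : TriangularFrame M e) (hs : SecLE M 0) (F : GFlow M.g) (D : SmoothDomain n) {r : ℝ}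
    (hr : 0 < r) {p N : E n} (hN : ‖N‖ = 1)
    (hfr : ∀ q ∈ frontier D.carrier, q ≠ p →
      2 * r * inner ℝ ((toGeo M e he hs F).lg p q) N = ‖(toGeo M e he hs F).lg p q‖ ^ 2 ∧
        |((toGeo M e he hs F).T p ((toGeo M e he hs F).lg p q)).det| = 1)
    (hV : riemVol M D.carrier = ENNReal.ofReal (modelVol n 0 r)) :
    ∃ φ : E n → E n, ContDiff ℝ ∞ φ ∧ InjOn φ (ball 0 r) ∧ φ '' ball 0 r = D.carrier ∧
      ∀ x ∈ ball (0 : E n) r, ∀ u v,
        M.g (φ x) (fderiv ℝ φ x u) (fderiv ℝ φ x v) = inner ℝ u v := by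
  set G := toGeo M e he hs F with hG
  have hn1 : 1 ≤ n := by omega
  have hopen : IsOpen D.carrier := isOpen_lt D.smooth.continuous continuous_const
  have hVpos : 0 < TPH.VR n 0 r := by
    have h1 := TPH.VR_strictMonoOn (k := 0) hn1 le_rfl (mem_Ici.2 le_rfl) (mem_Ici.2 hr.le) hr
    rwa [TPH.VR_zero] at h1
  rw [rcm_vol0 hn1] at hV
  have hne : D.carrier.Nonempty := rcm_ne M D hVpos hV
  obtain ⟨hball, hT⟩ := TP.flat_ball G hn hopen D.bdd hne hr hN hfr
  set v₀ : E n := r • N with hv₀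
  have hexs : ContDiff ℝ ∞ (G.ex p) :=
    G.ex_smooth.comp (contDiff_const.prodMk contDiff_id)
  have himg : (fun x : E n => x + v₀) '' ball 0 r = ball v₀ r := by
    ext y
    constructor
    · rintro ⟨x, hx, rfl⟩
      rw [mem_ball, dist_eq_norm] at hx ⊢
      simpa using hx
    · intro hy
      refine ⟨y - v₀, ?_, by simp⟩
      rw [mem_ball, dist_eq_norm] at hy ⊢
      simpa using hy
  refine ⟨fun x => G.ex p (x + v₀), hexs.comp (contDiff_id.add contDiff_const), ?_, ?_, ?_⟩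
  · intro x _ y _ hxy
    have h1 := congrArg (G.lg p) hxy
    simp only [G.lg_ex] at h1
    exact add_right_cancel h1
  · rw [hball, ← himg, image_image]
  · intro x hx u v
    have hxv : x + v₀ ∈ ball v₀ r := by
      rw [← himg]
      exact ⟨x, hx, rfl⟩
    have hfd : ∀ u, fderiv ℝ (fun x => G.ex p (x + v₀)) x u =
        frA e (G.ex p (x + v₀)) (G.T p (x + v₀) u) := by
      intro u
      rw [fderiv_comp_add_right]
      exact (G.T_spec p (x + v₀) u).symm
    rw [hfd, hfd]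
    have h1 : M.g (G.ex p (x + v₀)) (frA e (G.ex p (x + v₀)) (G.T p (x + v₀) u))
        (frA e (G.ex p (x + v₀)) (G.T p (x + v₀) v)) =
        inner ℝ (G.T p (x + v₀) u) (G.T p (x + v₀) v) := g_frA he _ _ _
    refine h1.trans ?_
    let L : E n →ₗᵢ[ℝ] E n := ⟨(G.T p (x + v₀)).toLinearMap, hT (x + v₀) hxv⟩
    exact L.inner_map_map u v

theorem hfr_hyp_phi (hn : 2 ≤ n) (M : RiemMetric n) (e : Fin n → E n → E n)
    (he : TriangularFrame M e) (hs : SecLE M (-1)) (F : GFlow M.g) (D : SmoothDomain n) {r : ℝ}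
    (hr : 0 < r) {p N : E n} (hN : ‖N‖ = 1)
    (hfr : ∀ q ∈ frontier D.carrier, q ≠ p →
      Real.sinh (‖(toGeo M e he (secLE_zero hs) F).lg p q‖ / 2) * Real.cosh r *
          ‖(toGeo M e he (secLE_zero hs) F).lg p q‖ =
        inner ℝ ((toGeo M e he (secLE_zero hs) F).lg p q) N *
          (Real.cosh (‖(toGeo M e he (secLE_zero hs) F).lg p q‖ / 2) * Real.sinh r) ∧
      |((toGeo M e he (secLE_zero hs) F).T p ((toGeo M e he (secLE_zero hs) F).lg p q)).det| *
          ‖(toGeo M e he (secLE_zero hs) F).lg p q‖ ^ (n - 1) =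
        Real.sinh ‖(toGeo M e he (secLE_zero hs) F).lg p q‖ ^ (n - 1))
    (hV : riemVol M D.carrier = ENNReal.ofReal (modelVol n (-1) r)) :
    ∃ φ : E n → E n, ContDiffOn ℝ ∞ φ (ball 0 (Real.sinh r)) ∧
      InjOn φ (ball 0 (Real.sinh r)) ∧ φ '' ball 0 (Real.sinh r) = D.carrier ∧
      ∀ y ∈ ball (0 : E n) (Real.sinh r), ∀ u v,
        M.g (φ y) (fderiv ℝ φ y u) (fderiv ℝ φ y v) =
          inner ℝ u v - inner ℝ y u * inner ℝ y v / (1 + ‖y‖ ^ 2) := by
  have hs0 : SecLE M 0 := secLE_zero hs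
  have hcurv : TPH.Curv (toGeo M e he hs0 F) 1 := TPH.curv_of_geoH (toGeoH M e he hs F hn)
  set G := toGeo M e he hs0 F with hG
  have hn1 : 1 ≤ n := by omega
  have hopen : IsOpen D.carrier := isOpen_lt D.smooth.continuous continuous_const
  have hVpos : 0 < TPH.VR n 1 r := by
    have h1 := TPH.VR_strictMonoOn (k := 1) hn1 zero_le_one (mem_Ici.2 le_rfl)
      (mem_Ici.2 hr.le) hr
    rwa [TPH.VR_zero] at h1
  rw [rcm_vol1 hn1] at hV
  have hne : D.carrier.Nonempty := rcm_ne M D hVpos hV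
  obtain ⟨hball, hT⟩ := TPH.hyp_ball G hn hcurv hopen D.bdd hne hr hN hfr
  obtain ⟨Ψ, hΨs, hΨi, hΨim, hΨq⟩ := TPH.exists_recenter hN hr
  have hexs : ContDiff ℝ ∞ (G.ex p) :=
    G.ex_smooth.comp (contDiff_const.prodMk contDiff_id)
  have hinj : Function.Injective (G.ex p) := by
    intro x y hxy
    have h1 := congrArg (G.lg p) hxy
    simpa only [G.lg_ex] using h1
  refine ⟨fun y => G.ex p (Ψ y), hexs.comp_contDiffOn hΨs, ?_, ?_, ?_⟩
  · intro x hx y hy hxy
    exact hΨi hx hy (hinj hxy)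
  · have h1 : (fun y => G.ex p (Ψ y)) '' ball 0 (Real.sinh r) =
        G.ex p '' (Ψ '' ball 0 (Real.sinh r)) := by rw [image_image]
    rw [h1, hΨim, ← hball]
  · intro y hy u v
    have hΨd : DifferentiableAt ℝ Ψ y :=
      (hΨs.contDiffAt (isOpen_ball.mem_nhds hy)).differentiableAt (by simp)
    have hexd : DifferentiableAt ℝ (G.ex p) (Ψ y) := hexs.differentiable (by simp) _
    have hmem : Ψ y ∈ TPH.regH N r := by
      rw [← hΨim]
      exact ⟨y, hy, rfl⟩
    set L : E n →L[ℝ] E n := (G.T p (Ψ y)).comp (fderiv ℝ Ψ y) with hL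
    have hfd : ∀ u, fderiv ℝ (fun y => G.ex p (Ψ y)) y u = frA e (G.ex p (Ψ y)) (L u) := by
      intro u
      have h1 : fderiv ℝ (fun y => G.ex p (Ψ y)) y =
          (fderiv ℝ (G.ex p) (Ψ y)).comp (fderiv ℝ Ψ y) := fderiv_comp y hexd hΨd
      rw [h1, ContinuousLinearMap.comp_apply]
      exact (G.T_spec p (Ψ y) (fderiv ℝ Ψ y u)).symm
    have hn2 : ∀ u, ‖L u‖ ^ 2 = ‖u‖ ^ 2 - inner ℝ y u ^ 2 / (1 + ‖y‖ ^ 2) := by
      intro u
      have h1 := hT (Ψ y) hmem (fderiv ℝ Ψ y u)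
      rw [hL, ContinuousLinearMap.comp_apply, h1, hΨq y hy u]
      rfl
    rw [hfd, hfd]
    have h1 : M.g (G.ex p (Ψ y)) (frA e (G.ex p (Ψ y)) (L u)) (frA e (G.ex p (Ψ y)) (L v)) =
        inner ℝ (L u) (L v) := g_frA he _ _ _
    refine h1.trans ?_
    have h2 := hn2 (u + v)
    rw [map_add, norm_add_sq_real, norm_add_sq_real, hn2 u, hn2 v, inner_add_right] at h2
    have h3 : (1 + ‖y‖ ^ 2) ≠ 0 := by positivity
    field_simp at h2 ⊢
    linarith

end Vale.Agent.P219.CH

namespace Vale.Agent.P219.Co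

/-- Equality case, `K = 0`. -/
theorem equality_hfr_flat {n : ℕ} (hn : 2 ≤ n) (hC : CH.HfrFlat n) (M : RiemMetric n)
    (hc : GeodesicallyComplete M) (hs : SecLE M 0) (D : SmoothDomain n) (r : ℝ) (hr : 0 ≤ r)
    (hV : riemVol M D.carrier = ENNReal.ofReal (modelVol n 0 r))
    (hA : riemArea M D = ENNReal.ofReal (modelArea n 0 r)) : IsometricToBallK M 0 D r := by
  obtain ⟨e, he⟩ := CH.exists_triangularFrame (old M)
  rcases hr.eq_or_lt with rfl | hr0
  · exact rcc_radius_zero M D hV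
  · have hV' : Vale.Agent.P219.riemVol (old M) (oldDomain D).carrier =
        ENNReal.ofReal (Vale.Agent.P219.modelVol n 0 r) := by
      rw [riemVol_old, modelVol_old]
      exact hV
    have hA' : Vale.Agent.P219.riemArea (old M) (oldDomain D) ≤
        ENNReal.ofReal (Vale.Agent.P219.modelArea n 0 r) := by
      rw [riemArea_old (frame_of_old he), modelArea_old]
      exact hA.le
    have hs' := secLE_old_of_frame ⟨e, he⟩ hs
    obtain ⟨F⟩ := CH.exists_gflow (CH.isMetricOn (old M)) (geoComplete_old hc)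
    obtain ⟨p, N, hN, hfr⟩ := hC (old M) e he hs' F (oldDomain D) r hr0 hV' hA'
    obtain ⟨φ, h1, h2, h3, h4⟩ := CH.hfr_flat_phi hn (old M) e he hs' F (oldDomain D) hr0 hN
      hfr hV'
    have hsn : sn √(-0) r = r := by
      unfold sn
      rw [neg_zero, Real.sqrt_zero, if_pos rfl]
    have hball : {y : E n | ∑ i, y i ^ 2 < sn √(-0) r ^ 2} = ball 0 r := by
      rw [hsn, rcc_ball_eq hr0]
    refine ⟨φ, fun k => ?_, ?_, ?_, ?_⟩
    · exact ((EuclideanSpace.proj k : E n →L[ℝ] ℝ).contDiff.comp h1).contDiffOn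
    · rw [hball]; exact h2
    · rw [hball]; exact h3
    · intro x hx i j
      have hx' : x ∈ ball (0 : E n) r := by rw [← hball]; exact hx
      rw [rcc_pull M (h1.differentiable (by simp) x), h4 x hx']
      simp [basisVec, EuclideanSpace.inner_single_left, PiLp.single_apply]

/-- Equality case, `K = -1`. -/
theorem equality_hfr_one {n : ℕ} (hn : 2 ≤ n) (hC : CH.HfrHyp n) (M : RiemMetric n)
    (hc : GeodesicallyComplete M) (hs : SecLE M (-1)) (D : SmoothDomain n) (r : ℝ) (hr : 0 ≤ r)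
    (hV : riemVol M D.carrier = ENNReal.ofReal (modelVol n (-1) r))
    (hA : riemArea M D = ENNReal.ofReal (modelArea n (-1) r)) :
    IsometricToBallK M (-1) D r := by
  obtain ⟨e, he⟩ := CH.exists_triangularFrame (old M)
  rcases hr.eq_or_lt with rfl | hr0
  · exact rcc_radius_zero M D hV
  · have hV' : Vale.Agent.P219.riemVol (old M) (oldDomain D).carrier =
        ENNReal.ofReal (Vale.Agent.P219.modelVol n (-1) r) := by
      rw [riemVol_old, modelVol_old]
      exact hV
    have hA' : Vale.Agent.P219.riemArea (old M) (oldDomain D) ≤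
        ENNReal.ofReal (Vale.Agent.P219.modelArea n (-1) r) := by
      rw [riemArea_old (frame_of_old he), modelArea_old]
      exact hA.le
    have hs' := secLE_old_of_frame ⟨e, he⟩ hs
    obtain ⟨F⟩ := CH.exists_gflow (CH.isMetricOn (old M)) (geoComplete_old hc)
    obtain ⟨p, N, hN, hfr⟩ := hC (old M) e he hs' F (oldDomain D) r hr0 hV' hA'
    obtain ⟨φ, h1, h2, h3, h4⟩ := CH.hfr_hyp_phi hn (old M) e he hs' F (oldDomain D) hr0 hN
      hfr hV'
    have hsr : 0 < Real.sinh r := Real.sinh_pos_iff.2 hr0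
    have hball : {y : E n | ∑ i, y i ^ 2 < sn √(-(-1)) r ^ 2} = ball 0 (Real.sinh r) := by
      rw [scale_sn_one, rcc_ball_eq hsr]
    refine ⟨φ, fun k => ?_, ?_, ?_, ?_⟩
    · rw [hball]
      exact (EuclideanSpace.proj k : E n →L[ℝ] ℝ).contDiff.comp_contDiffOn h1
    · rw [hball]; exact h2
    · rw [hball]; exact h3
    · intro x hx i j
      have hx' : x ∈ ball (0 : E n) (Real.sinh r) := by rw [← hball]; exact hx
      have hd : DifferentiableAt ℝ φ x :=
        (h1.contDiffAt (isOpen_ball.mem_nhds hx')).differentiableAt (by simp)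
      rw [rcc_pull M hd, h4 x hx']
      have hn2 : ‖x‖ ^ 2 = ∑ m, x m ^ 2 := by
        rw [EuclideanSpace.norm_sq_eq]
        exact Finset.sum_congr rfl fun m _ => by rw [Real.norm_eq_abs, sq_abs]
      have hij : inner ℝ (basisVec i) (basisVec j) = (if i = j then 1 else 0 : ℝ) := by
        rcases eq_or_ne i j with rfl | hij
        · simp [basisVec, EuclideanSpace.inner_single_right]
        · simp [basisVec, EuclideanSpace.inner_single_right, hij, hij.symm]
      have hx1 : ∀ k, inner ℝ x (basisVec k) = x k := by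
        intro k
        simp [basisVec, EuclideanSpace.inner_single_right]
      rw [hn2, hij, hx1, hx1]
      ring

/-- Equality case, all `κ ≤ 0`, from the chord relations at one boundary point. -/
theorem equality_of_hfr {n : ℕ} (hn : 2 ≤ n) (h0 : CH.HfrFlat n) (h1 : CH.HfrHyp n)
    (M : RiemMetric n) (hc : GeodesicallyComplete M) {κ : ℝ} (hκ : κ ≤ 0) (hs : SecLE M κ)
    (D : SmoothDomain n) (r : ℝ) (hr : 0 ≤ r)
    (hV : riemVol M D.carrier = ENNReal.ofReal (modelVol n κ r))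
    (hA : riemArea M D = ENNReal.ofReal (modelArea n κ r)) : IsometricToBallK M κ D r := by
  rcases hκ.eq_or_lt with rfl | hκ
  · exact equality_hfr_flat hn h0 M hc hs D r hr hV hA
  · obtain ⟨b, hb0, hb, hb2⟩ : ∃ b : ℝ, √(-κ) = b ∧ 0 < b ∧ -κ = b ^ 2 :=
      ⟨√(-κ), rfl, Real.sqrt_pos.2 (neg_pos.2 hκ), (Real.sq_sqrt (neg_pos.2 hκ).le).symm⟩
    apply rcc_of_scale hκ
    apply equality_hfr_one hn h1 _ (scale_complete _ hc) (scale_sec hκ hs) D
    · positivity
    · rw [hb0, scale_riemVol hb _ hb2, scale_modelVol (by omega) hb hb2, hV,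
        ENNReal.ofReal_mul (pow_nonneg hb.le n)]
    · rw [hb0, scale_riemArea (by omega) hb _ hb2, scale_modelArea hb hb2, hA,
        ENNReal.ofReal_mul (pow_nonneg hb.le (n - 1))]

end Vale.Agent.P219.Co
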