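import Vale.Agent.P219.TPR.RigDomain

/-! # Equality case: from the limit measure to every boundary point -/

open MeasureTheory Set Metric Filter Topology
open scoped ENNReal ContDiff

noncomputable section

namespace Vale.Agent.P219.CH

variable {n : ℕ}

theorem rf_continuous (G : TP.Geo n) (D : SmoothDomain n) (ε : ℝ) :
    Continuous fun x => ‖G.D (Feps D ε) x‖ :=
  (rd_D_cont G ((Feps_smooth D ε).of_le (by simp))).norm

theorem rf_integrable (G : TP.Geo n) (D : SmoothDomain n) {ε : ℝ} (hε : 0 < ε) {φ : E n → ℝ}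
    (hφ : Continuous φ) : Integrable (fun x => φ x * ‖G.D (Feps D ε) x‖) G.vol := by
  have hcs : HasCompactSupport fun x => ‖G.D (Feps D ε) x‖ := by
    refine ((Feps_compact D hε).fderiv (𝕜 := ℝ)).mono' ?_
    intro x hx
    refine subset_tsupport _ ?_
    rw [Function.mem_support] at hx ⊢
    intro h0
    apply hx
    unfold TP.Geo.D
    rw [h0, ContinuousLinearMap.zero_comp, map_zero, norm_zero]
  have : IsFiniteMeasureOnCompacts G.vol := ⟨fun K hK => G.vol_compact_lt_top hK⟩
  exact (hφ.mul (rf_continuous G D ε)).integrable_of_hasCompactSupport hcs.mul_left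

/-- Step (5) of the equality case. -/
theorem frontier_of_lim (G : TP.Geo n) (hn : 1 ≤ n) (D : SmoothDomain n) {φ : E n → ℝ}
    (hφ : Continuous φ) (h0 : ∀ x, 0 ≤ φ x) {U : Filter ℕ} [NeBot U] (hU : U ≤ atTop)
    (hlim : Tendsto (fun k : ℕ => ∫ x, φ x * ‖G.D (Feps D (1 / (k + 1))) x‖ ∂G.vol) U (𝓝 0)) :
    ∀ q ∈ frontier D.carrier, φ q = 0 := by
  intro q hq
  have hρ : D.ρ q = 0 := by
    rw [frontier_carrier] at hq
    exact hq.1
  by_contra hne
  have hpos : 0 < φ q := lt_of_le_of_ne (h0 q) (Ne.symm hne)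
  set W : Set (E n) := {x | φ q / 2 < φ x} with hW
  have hWn : W ∈ 𝓝 q := (isOpen_lt continuous_const hφ).mem_nhds (by
    show φ q / 2 < φ q
    linarith)
  have hWm : MeasurableSet W := (isOpen_lt continuous_const hφ).measurableSet
  obtain ⟨c, hc, hev⟩ := feps_lower G hn D hρ hWn
  have hkey : ∀ᶠ k : ℕ in U, φ q / 2 * c ≤
      ∫ x, φ x * ‖G.D (Feps D (1 / (k + 1))) x‖ ∂G.vol := by
    filter_upwards [hev.filter_mono hU] with k hk
    have hε : (0 : ℝ) < 1 / ((k : ℝ) + 1) := by positivity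
    have hi := rf_integrable G D hε hφ
    have hi1 : Integrable (fun x => ‖G.D (Feps D (1 / ((k : ℝ) + 1))) x‖) G.vol := by
      have := rf_integrable G D hε (φ := fun _ => 1) continuous_const
      simpa using this
    calc φ q / 2 * c ≤ φ q / 2 * ∫ x in W, ‖G.D (Feps D (1 / (k + 1))) x‖ ∂G.vol :=
          mul_le_mul_of_nonneg_left hk (by positivity)
      _ = ∫ x in W, φ q / 2 * ‖G.D (Feps D (1 / (k + 1))) x‖ ∂G.vol :=
          (integral_const_mul _ _).symm
      _ ≤ ∫ x in W, φ x * ‖G.D (Feps D (1 / (k + 1))) x‖ ∂G.vol := by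
          refine setIntegral_mono_on (hi1.const_mul _).integrableOn hi.integrableOn hWm
            fun x hx => mul_le_mul_of_nonneg_right (le_of_lt hx) (norm_nonneg _)
      _ ≤ ∫ x, φ x * ‖G.D (Feps D (1 / (k + 1))) x‖ ∂G.vol :=
          setIntegral_le_integral hi (Eventually.of_forall fun x =>
            mul_nonneg (h0 x) (norm_nonneg _))
  have h1 : φ q / 2 * c ≤ 0 := ge_of_tendsto hlim hkey
  have h2 : 0 < φ q / 2 * c := by positivity
  linarith

/-- If the limit measure of `|D h_k|` is concentrated on the geodesic sphere, then the frontier is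
contained in it. -/
theorem frontier_sphere_of_lim (G : TP.Geo n) (hn : 1 ≤ n) (D : SmoothDomain n) (c : E n) (r : ℝ)
    {U : Filter ℕ} [NeBot U] (hU : U ≤ atTop)
    (hlim : Tendsto (fun k : ℕ => ∫ x, (‖G.lg c x‖ - r) ^ 2 *
      ‖G.D (Feps D (1 / (k + 1))) x‖ ∂G.vol) U (𝓝 0)) :
    ∀ q ∈ frontier D.carrier, ‖G.lg c q‖ = r := by
  intro q hq
  have hlg : Continuous fun x => ‖G.lg c x‖ :=
    (G.lg_smooth.continuous.comp (continuous_const.prodMk continuous_id)).norm
  have h1 := frontier_of_lim G hn D ((hlg.sub continuous_const).pow 2) (fun x => sq_nonneg _) hU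
    hlim q hq
  have h2 : ‖G.lg c q‖ - r = 0 := pow_eq_zero_iff two_ne_zero |>.1 h1
  linarith

end Vale.Agent.P219.CH
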