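import Vale.Agent.P219.SA.Neg
import Vale.Agent.P219.SA.Glue
import Vale.Agent.P219.SR.RigFive
import Vale.Agent.P219.SR.CoRigCenter

/-! # Equality case: the cut-offs of an extremal domain are a minimising sequence -/

open MeasureTheory Set Metric Filter Topology
open scoped ENNReal NNReal ContDiff

noncomputable section

namespace Vale.Agent.P219.SA

open Vale.Agent.P219.TP Vale.Agent.P219.TPH

/-- Equality case on the limit: if the mass of the limit is the model area, then the limit sits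
on a geodesic sphere. -/
def LimRig (n : ℕ) (k : ℝ) : Prop :=
  ∀ G : Geo n, MonoSn G k → ∀ (o : E n) (ρ : ℝ) (I : ℝ → ℝ) (R : ℝ) (U : Ultrafilter ℕ)
    (h : ℕ → E n → ℝ) (V : Measure (E n × E n)), 0 < ρ → 0 < R → (U : Filter ℕ) ≤ atTop →
    MonotoneOn I (Ici 0) → ContinuousOn I (Ici 0) → (∀ V, 0 ≤ V → 0 ≤ I V) → I 0 = 0 →
    (∀ R, 0 ≤ R → I (VR n k R) = AR n k R) → HasStrictDerivAt I (H0 n k R) (VR n k R) →
    MinSeq G o ρ I 0 (VR n k R) U h → IsLim G o ρ U h V → 0 < V.real univ →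
    V.real univ ≤ AR n k R → ∃ c, ∀ᵐ z ∂V, ‖G.lg c z.1‖ = R

end Vale.Agent.P219.SA

namespace Vale.Agent.P219.CH

variable {n : ℕ}

theorem rs_V1_le_vp (G : TP.Geo n) (hn : 2 ≤ n) {h : E n → ℝ} (hh1 : ContDiff ℝ 1 h)
    (hcs : HasCompactSupport h) (h01 : ∀ x, 0 ≤ h x ∧ h x ≤ 1) : TPH.V1 G h ≤ G.vp h := by
  have hp0 : (0 : ℝ) < (n : ℝ) / (n - 1) := by
    have : (2 : ℝ) ≤ n := by exact_mod_cast hn
    exact div_pos (by linarith) (by linarith)
  have hm1 : MeasurableSet {x | h x = 1} :=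
    (isClosed_eq hh1.continuous continuous_const).measurableSet
  have hK : G.vol (tsupport h) < ⊤ := G.vol_compact_lt_top hcs.isCompact
  have hf1 : G.vol {x | h x = 1} ≠ ⊤ := by
    refine ((measure_mono fun x hx => ?_).trans_lt hK).ne
    refine subset_tsupport h ?_
    have : h x = 1 := hx
    rw [Function.mem_support, this]
    exact one_ne_zero
  have hi1 : Integrable ({x | h x = 1}.indicator (1 : E n → ℝ)) G.vol :=
    (integrable_indicator_iff hm1).2 (integrableOn_const hf1)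
  have hlow : ∀ x, {x | h x = 1}.indicator (1 : E n → ℝ) x ≤ h x ^ ((n : ℝ) / ((n : ℝ) - 1)) := by
    intro x
    by_cases hx : x ∈ {x | h x = 1}
    · have h1 : h x = 1 := hx
      rw [indicator_of_mem hx, h1, Real.one_rpow]
      rfl
    · rw [indicator_of_notMem hx]
      exact Real.rpow_nonneg (h01 x).1 _
  have hc : Continuous fun x => h x ^ ((n : ℝ) / ((n : ℝ) - 1)) :=
    hh1.continuous.rpow_const fun x => Or.inr hp0.le
  have hcs' : HasCompactSupport fun x => h x ^ ((n : ℝ) / ((n : ℝ) - 1)) := by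
    refine hcs.mono fun x hx => ?_
    rw [Function.mem_support] at hx ⊢
    intro h0
    apply hx
    rw [h0, Real.zero_rpow hp0.ne']
  have : IsFiniteMeasureOnCompacts G.vol := ⟨fun K hK => G.vol_compact_lt_top hK⟩
  have hi : Integrable (fun x => h x ^ ((n : ℝ) / ((n : ℝ) - 1))) G.vol :=
    hc.integrable_of_hasCompactSupport hcs'
  unfold TPH.V1 TP.Geo.vp
  rw [← integral_indicator_one hm1]
  exact integral_mono hi1 hi hlow

theorem rs_V1 (M : RiemMetric n) (e : Fin n → E n → E n) (he : TriangularFrame M e)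
    (hs : SecLE M 0) (F : GFlow M.g) (hn : 2 ≤ n) (D : SmoothDomain n) {V : ℝ} (hV0 : 0 ≤ V)
    (hV : riemVol M D.carrier = ENNReal.ofReal V) :
    Tendsto (fun k : ℕ => TPH.V1 (toGeo M e he hs F) (Feps D (1 / (k + 1)))) atTop (𝓝 V) ∧
    Tendsto (fun k : ℕ => (toGeo M e he hs F).vol.real
      {x | 0 < Feps D (1 / (k + 1)) x ∧ Feps D (1 / (k + 1)) x < 1}) atTop (𝓝 0) := by
  obtain ⟨hvp, hlay⟩ := feps_vol M e he hs F hn D hV0 hV
  set G := toGeo M e he hs F with hG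
  have hε : ∀ k : ℕ, 0 < 1 / ((k : ℝ) + 1) := fun k => by positivity
  have hb1 : ∀ k : ℕ, TPH.V1 G (Feps D (1 / (k + 1))) ≤ G.vp (Feps D (1 / (k + 1))) := fun k =>
    rs_V1_le_vp G hn ((Feps_smooth D _).of_le (by simp)) (Feps_compact D (hε k))
      fun x => ⟨Feps_nonneg D _ x, Feps_le_one D _ x⟩
  have hb2 : ∀ k : ℕ, G.vp (Feps D (1 / (k + 1))) ≤ TPH.V1 G (Feps D (1 / (k + 1))) +
        G.vol.real {x | 0 < Feps D (1 / (k + 1)) x ∧ Feps D (1 / (k + 1)) x < 1} := fun k =>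
    gl_vp_le G hn ((Feps_smooth D _).of_le (by simp)) (Feps_compact D (hε k))
      fun x => ⟨Feps_nonneg D _ x, Feps_le_one D _ x⟩
  have hlay0 : Tendsto (fun k : ℕ => G.vol.real
      {x | 0 < Feps D (1 / (k + 1)) x ∧ Feps D (1 / (k + 1)) x < 1}) atTop (𝓝 0) := by
    rw [Metric.tendsto_atTop]
    intro δ hδ
    obtain ⟨N, hN⟩ := eventually_atTop.1 (hlay δ hδ)
    refine ⟨N, fun k hk => ?_⟩
    rw [Real.dist_eq, sub_zero, abs_of_nonneg measureReal_nonneg]
    exact hN k hk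
  refine ⟨?_, hlay0⟩
  refine tendsto_of_tendsto_of_tendsto_of_le_of_le (f := fun k : ℕ =>
    TPH.V1 G (Feps D (1 / (k + 1)))) (g := fun k : ℕ => G.vp (Feps D (1 / (k + 1))) - G.vol.real
      {x | 0 < Feps D (1 / (k + 1)) x ∧ Feps D (1 / (k + 1)) x < 1})
    (h := fun k : ℕ => G.vp (Feps D (1 / (k + 1)))) ?_ hvp ?_ ?_
  · simpa using hvp.sub hlay0
  · intro k
    have := hb2 k
    simp only
    linarith
  · intro k
    exact hb1 k

/-- The boundary of an extremal domain is a geodesic sphere. -/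
theorem center_of_limRig (hn : 2 ≤ n) {k κ : ℝ} (hk : 0 ≤ k)
    (hVM : ∀ r, modelVol n κ r = TPH.VR n k r) (hAM : ∀ r, modelArea n κ r = TPH.AR n k r)
    (FI : TPH.FuncIso n k) (LR : SA.LimRig n k) (M : RiemMetric n) (e : Fin n → E n → E n)
    (he : TriangularFrame M e) (hs0 : SecLE M 0) (F : GFlow M.g)
    (hcurv : TPH.MonoSn (toGeo M e he hs0 F) k) (D : SmoothDomain n) {r : ℝ} (hr : 0 < r)
    (hV : riemVol M D.carrier = ENNReal.ofReal (modelVol n κ r))
    (hA : riemArea M D ≤ ENNReal.ofReal (modelArea n κ r)) :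
    ∃ c, ∀ q ∈ frontier D.carrier, ‖(toGeo M e he hs0 F).lg c q‖ = r := by
  have hn1 : 1 ≤ n := by omega
  have hVpos : 0 < TPH.VR n k r := by
    have h1 := TPH.VR_strictMonoOn (k := k) hn1 hk (mem_Ici.2 le_rfl) (mem_Ici.2 hr.le) hr
    rwa [TPH.VR_zero] at h1
  have hApos : 0 < TPH.AR n k r := TPH.AR_pos hn1 hk hr
  rw [hVM] at hV
  rw [hAM] at hA
  have hper := feps_per M e he hs0 F hn D hApos.le hA
  obtain ⟨hv1, hlay⟩ := rs_V1 M e he hs0 F hn D hVpos.le hV
  set G := toGeo M e he hs0 F with hG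
  obtain ⟨I, hImono, hIcont, hI0, hIz, hIR, hId⟩ := TPH.exists_profile (n := n) (k := k) hn hk
  have hlg : Continuous fun x => ‖G.lg 0 x‖ :=
    (G.lg_smooth.continuous.comp (continuous_const.prodMk continuous_id)).norm
  have hcomp : IsCompact (closure D.carrier) := D.bdd.isCompact_closure
  obtain ⟨B, hB⟩ := (hcomp.image hlg).isBounded.subset_closedBall 0
  have hB' : ∀ x ∈ D.carrier, ‖G.lg 0 x‖ ≤ max B 1 := by
    intro x hx
    have h1 := hB ⟨x, subset_closure hx, rfl⟩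
    rw [mem_closedBall, dist_zero_right, Real.norm_eq_abs, abs_of_nonneg (norm_nonneg _)] at h1
    exact h1.trans (le_max_left _ _)
  have hρ₀ : 0 < max B 1 := lt_of_lt_of_le one_pos (le_max_right _ _)
  have heps : ∀ k : ℕ, (0 : ℝ) < 1 / ((k : ℝ) + 1) := fun k => by positivity
  have hcls : ∀ k : ℕ, G.Cls 0 (max B 1) (Feps D (1 / ((k : ℝ) + 1))) := by
    intro k
    refine ⟨(Feps_smooth D _).of_le (by simp), Feps_nonneg D _, Feps_le_one D _, ?_⟩
    intro x hx
    apply hB'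
    by_contra hx'
    exact hx (Feps_eq_zero D (heps k) hx')
  have hinf : ∀ g, G.Cls 0 (max B 1) g → 0 ≤ G.per g - I (TPH.V1 G g) := by
    intro g hg
    obtain ⟨R', hR', hVR⟩ := TPH.exists_VR (n := n) (k := k) hn1 hk (TPH.sliceh_V1_nonneg G g)
    have h1 := FI G hcurv g hg.smooth (TP.slice_hcs G hg) (fun x => ⟨hg.nonneg x, hg.le_one x⟩) R'
      hR' hVR.le
    rw [← hVR, hIR R' hR']
    linarith
  set h : ℕ → E n → ℝ := fun j => Feps D (1 / ((j : ℝ) + 1)) with hh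
  have hIV : Tendsto (fun j => I (TPH.V1 G (h j))) atTop (𝓝 (TPH.AR n k r)) := by
    rw [← hIR r hr.le]
    have h3 : Tendsto (fun j => TPH.V1 G (h j)) atTop (𝓝[Ici 0] (TPH.VR n k r)) :=
      tendsto_nhdsWithin_iff.2 ⟨hv1, Eventually.of_forall fun j => TPH.sliceh_V1_nonneg G (h j)⟩
    exact (hIcont (TPH.VR n k r) hVpos.le).tendsto.comp h3
  have hpl : Tendsto (fun j => G.per (h j)) atTop (𝓝 (TPH.AR n k r)) := by
    rw [Metric.tendsto_atTop]
    intro δ hδ
    have h1 := hper (δ / 2) (by positivity)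
    have h2 := hIV.eventually (lt_mem_nhds (show TPH.AR n k r - δ < TPH.AR n k r by linarith))
    obtain ⟨N, hN⟩ := eventually_atTop.1 (h1.and h2)
    refine ⟨N, fun j hj => ?_⟩
    obtain ⟨h3, h4⟩ := hN j hj
    have h5 := hinf (h j) (hcls j)
    rw [Real.dist_eq, abs_lt]
    constructor
    · linarith
    · have : G.per (h j) ≤ TPH.AR n k r + δ / 2 := h3
      linarith
  obtain ⟨C, hC⟩ := hpl.bddAbove_range
  have hC' : ∀ j, G.per (h j) ≤ C := fun j => hC ⟨j, rfl⟩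
  set U : Ultrafilter ℕ := Ultrafilter.of atTop with hUdef
  have hU : (U : Filter ℕ) ≤ atTop := Ultrafilter.of_le atTop
  have hlim0 : Tendsto (fun j => G.per (h j) - I (TPH.V1 G (h j))) U (𝓝 0) := by
    have h1 := hpl.sub hIV
    rw [sub_self] at h1
    exact h1.mono_left hU
  have hm : SA.MinSeq G 0 (max B 1) I 0 (TPH.VR n k r) U h :=
    ⟨hcls, hinf, hlim0, hlay.mono_left hU, hv1.mono_left hU⟩
  obtain ⟨V, hVl⟩ := SA.exists_isLim G hcls hC' U
  have hmass : V.real univ = TPH.AR n k r := by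
    have h1 := SA.mass_eq G hIcont hVpos.le hm hVl
    rw [h1, hIR r hr.le, zero_add]
  obtain ⟨c, hc⟩ := LR G hcurv 0 (max B 1) I r U h V hρ₀ hr hU hImono hIcont hI0 hIz hIR
    (hId r hr) hm hVl (by rw [hmass]; exact hApos) hmass.le
  refine ⟨c, ?_⟩
  have hlgc : Continuous fun x => ‖G.lg c x‖ :=
    (G.lg_smooth.continuous.comp (continuous_const.prodMk continuous_id)).norm
  have hφ : Continuous fun z : E n × E n => (‖G.lg c z.1‖ - r) ^ 2 :=
    ((hlgc.comp continuous_fst).sub continuous_const).pow 2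
  have hl := hVl.lim (fun z => (‖G.lg c z.1‖ - r) ^ 2) hφ.continuousOn
  have hz : ∫ z, (‖G.lg c z.1‖ - r) ^ 2 ∂V = 0 := by
    rw [integral_congr_ae (g := fun _ => (0 : ℝ))]
    · simp
    · filter_upwards [hc] with z hz
      rw [hz]
      ring
  rw [hz] at hl
  exact frontier_sphere_of_lim G hn1 D c r hU hl

theorem rs_sn_one (r : ℝ) : sn √(-(-1)) r = TPH.sn 1 r := by
  unfold sn TPH.sn
  rw [neg_neg, Real.sqrt_one]

theorem rs_sn_zero (r : ℝ) : sn √(-0) r = TPH.sn 0 r := by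
  unfold sn TPH.sn
  rw [neg_zero, Real.sqrt_zero]

/-- `K = 0`. -/
theorem centerFlat_of_limRig (hn : 2 ≤ n) (FI : TPH.FuncIso n 0) (LR : SA.LimRig n 0) :
    CenterFlat n := by
  intro M e he hs F D r hr hV hA
  have hn1 : 1 ≤ n := by omega
  refine center_of_limRig hn le_rfl (fun r => rcm_vol0 hn1 r) (fun r => ?_) FI LR M e he hs F
    (TPH.MonoSn.zero _) D hr hV hA
  unfold modelArea TPH.AR
  rw [TP.sig_eq hn1, om_eq, rs_sn_zero]

/-- `K = -1`. -/
theorem centerHyp_of_limRig (hn : 2 ≤ n) (FI : TPH.FuncIso n 1) (LR : SA.LimRig n 1) :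
    CenterHyp n := by
  intro M e he hs F D r hr hV hA
  have hn1 : 1 ≤ n := by omega
  refine center_of_limRig hn zero_le_one (fun r => rcm_vol1 hn1 r) (fun r => ?_) FI LR M e he
    (secLE_zero hs) F (TPH.curv_of_geoH (toGeoH M e he hs F hn)).monoSn D hr hV hA
  unfold modelArea TPH.AR
  rw [TP.sig_eq hn1, om_eq, rs_sn_one]

end Vale.Agent.P219.CH

namespace Vale.Agent.P219.Co

/-- The isoperimetric inequality with equality case, for `Sec ≤ κ`, all `κ ≤ 0`. -/
theorem equality_limRig {n : ℕ} (hn : 2 ≤ n) (FI : ∀ k : ℝ, 0 ≤ k → TPH.FuncIso n k)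
    (LR : ∀ k : ℝ, 0 ≤ k → SA.LimRig n k) (M : RiemMetric n) (hc : GeodesicallyComplete M)
    {κ : ℝ} (hκ : κ ≤ 0) (hs : SecLE M κ) (D : SmoothDomain n) (r : ℝ) (hr : 0 ≤ r)
    (hV : riemVol M D.carrier = ENNReal.ofReal (modelVol n κ r))
    (hA : riemArea M D = ENNReal.ofReal (modelArea n κ r)) : IsometricToBallK M κ D r :=
  equality_center hn (CH.centerFlat_of_limRig hn (FI 0 le_rfl) (LR 0 le_rfl))
    (CH.centerHyp_of_limRig hn (FI 1 zero_le_one) (LR 1 zero_le_one)) M hc hκ hs D r hr hV hA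

end Vale.Agent.P219.Co
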