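import Vale.Agent.P219.SR.RigThree

/-! # The generalized Cartan-Hadamard conjecture: assembly -/

open MeasureTheory Set Metric Filter Topology
open scoped ENNReal NNReal ContDiff

noncomputable section

namespace Vale.Agent.P219.Co

open Vale.Agent.P219.SA

/-- The inequality and the equality case, from their functional forms. -/
theorem allN_of {n : ℕ} (hn : 2 ≤ n) (FI : ∀ k : ℝ, 0 ≤ k → TPH.FuncIso n k)
    (LR : ∀ k : ℝ, 0 ≤ k → LimRig n k) {K : ℝ} (hK : K ≤ 0) (M : RiemMetric n)
    (hM : GeodesicallyComplete M) (hs : SecLE M K) : IsoperimetricIneq M K ∧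
      ∀ (D : SmoothDomain n) (r : ℝ), 0 ≤ r →
        riemVol M D.carrier = ENNReal.ofReal (modelVol n K r) →
        riemArea M D = ENNReal.ofReal (modelArea n K r) → IsometricToBallK M K D r :=
  ⟨isop_of_func hn FI M hM hK hs, fun D r hr hV hA =>
    equality_limRig hn FI LR M hM hK hs D r hr hV hA⟩

/-- Dimension at least four, from the density field and the sharp Sobolev inequality on the
limit. -/
theorem allN_four {n : ℕ} (hn : 4 ≤ n) (hdf : DensFieldStmt n) (sob : LimSob n) {K : ℝ}
    (hK : K ≤ 0) (M : RiemMetric n) (hM : GeodesicallyComplete M) (hs : SecLE M K) :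
    IsoperimetricIneq M K ∧
      ∀ (D : SmoothDomain n) (r : ℝ), 0 ≤ r →
        riemVol M D.carrier = ENNReal.ofReal (modelVol n K r) →
        riemArea M D = ENNReal.ofReal (modelArea n K r) → IsometricToBallK M K D r :=
  allN_of (by omega) (fun _ hk => funcIso_four hdf hn hk sob)
    (fun _ hk => limRig_four hdf hn hk sob) hK M hM hs

/-- Dimension three, from the density field. -/
theorem allN_three (hdf : DensFieldStmt 3) {K : ℝ} (hK : K ≤ 0) (M : RiemMetric 3)
    (hM : GeodesicallyComplete M) (hs : SecLE M K) :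
    IsoperimetricIneq M K ∧
      ∀ (D : SmoothDomain 3) (r : ℝ), 0 ≤ r →
        riemVol M D.carrier = ENNReal.ofReal (modelVol 3 K r) →
        riemArea M D = ENNReal.ofReal (modelArea 3 K r) → IsometricToBallK M K D r :=
  allN_of (by norm_num) (fun _ hk => funcIso_three hdf hk) (fun _ hk => limRig_three hdf hk) hK M
    hM hs

/-- Dimension at least three. -/
theorem allN_ge_three {n : ℕ} (hn : 3 ≤ n) (hdf : DensFieldStmt n)
    (sob : 4 ≤ n → LimSob n) {K : ℝ} (hK : K ≤ 0) (M : RiemMetric n)
    (hM : GeodesicallyComplete M) (hs : SecLE M K) :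
    IsoperimetricIneq M K ∧
      ∀ (D : SmoothDomain n) (r : ℝ), 0 ≤ r →
        riemVol M D.carrier = ENNReal.ofReal (modelVol n K r) →
        riemArea M D = ENNReal.ofReal (modelArea n K r) → IsometricToBallK M K D r := by
  rcases hn.eq_or_lt with rfl | h4
  · exact allN_three hdf hK M hM hs
  · exact allN_four h4 hdf (sob h4) hK M hM hs

end Vale.Agent.P219.Co
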