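import Vale.Agent.P219.TPHR.Recenter
import Vale.Agent.P219.SB.Shc

/-! # Hyperboloid coordinates and normal coordinates at the centre -/

open MeasureTheory Set Metric Filter Topology
open scoped ENNReal ContDiff

namespace Vale.Agent.P219.SR

open Vale.Agent.P219.TP Vale.Agent.P219.TPH Vale.Agent.P219.SB

variable {n : ℕ}

theorem rcE_zero : rcE (0 : E n) = 0 := by
  unfold rcE
  simp

theorem rcL_zero : rcL (0 : E n) = 0 := by
  unfold rcL
  simp

theorem rcL_eq (v : E n) : rcL v = shc (‖v‖ ^ 2) • v := by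
  rcases eq_or_ne v 0 with rfl | hv
  · rw [rcL_zero, smul_zero]
  · rw [shc_sq (norm_ne_zero_iff.2 hv)]
    rfl

theorem rcL_rcE' (w : E n) : rcL (rcE w) = w := by
  rcases eq_or_ne w 0 with rfl | hw
  · rw [rcE_zero, rcL_zero]
  · exact rcL_rcE w hw

theorem rcE_rcL' (v : E n) : rcE (rcL v) = v := by
  rcases eq_or_ne v 0 with rfl | hv
  · rw [rcL_zero, rcE_zero]
  · exact rcE_rcL v hv

theorem rcE_norm' (w : E n) : ‖rcE w‖ = Real.arsinh ‖w‖ := by
  rcases eq_or_ne w 0 with rfl | hw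
  · rw [rcE_zero, norm_zero, Real.arsinh_zero]
  · exact rcE_norm w hw

theorem rcL_norm' (v : E n) : ‖rcL v‖ = Real.sinh ‖v‖ := by
  rcases eq_or_ne v 0 with rfl | hv
  · rw [rcL_zero, norm_zero, Real.sinh_zero]
  · exact rcL_norm v hv

theorem contDiff_rcL : ContDiff ℝ ∞ (rcL : E n → E n) := by
  have h : (rcL : E n → E n) = fun v => shc (‖v‖ ^ 2) • v := funext rcL_eq
  rw [h]
  exact (contDiff_shc.comp (contDiff_norm_sq ℝ)).smul contDiff_id

theorem hasFDerivAt_rcL_zero :
    HasFDerivAt (rcL : E n → E n) (ContinuousLinearMap.id ℝ (E n)) 0 := by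
  have h : (rcL : E n → E n) = fun v => shc (‖v‖ ^ 2) • v := funext rcL_eq
  have h1 : DifferentiableAt ℝ (fun v : E n => shc (‖v‖ ^ 2)) 0 :=
    ((contDiff_shc.comp (contDiff_norm_sq ℝ)).differentiable (by simp)) 0
  have h2 := h1.hasFDerivAt.smul (hasFDerivAt_id (0 : E n))
  rw [h]
  refine h2.congr_fderiv ?_
  ext v
  simp [shc_zero]

theorem contDiffAt_rcE_zero : ContDiffAt ℝ ∞ (rcE : E n → E n) 0 := by
  have hL : ContDiffAt ℝ ∞ (rcL : E n → E n) 0 := contDiff_rcL.contDiffAt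
  have hd : HasFDerivAt (rcL : E n → E n)
      ((ContinuousLinearEquiv.refl ℝ (E n) : E n ≃L[ℝ] E n) : E n →L[ℝ] E n) 0 :=
    hasFDerivAt_rcL_zero
  have h1 := hL.to_localInverse hd (by simp)
  rw [rcL_zero] at h1
  refine h1.congr_of_eventuallyEq ?_
  have h2 := (hL.hasStrictFDerivAt' hd (by simp)).eventually_right_inverse
  rw [rcL_zero] at h2
  filter_upwards [h2] with y hy
  have h3 : rcE (rcL ((hL.hasStrictFDerivAt' hd (by simp)).localInverse rcL _ 0 y)) = rcE y :=
    congrArg rcE hy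
  rw [rcE_rcL'] at h3
  exact h3.symm

theorem contDiff_rcE : ContDiff ℝ ∞ (rcE : E n → E n) := by
  rw [contDiff_iff_contDiffAt]
  intro w
  rcases eq_or_ne w 0 with rfl | hw
  · exact contDiffAt_rcE_zero
  · have hN : ContDiffAt ℝ ∞ (fun y : E n => ‖y‖) w := contDiffAt_norm ℝ hw
    unfold rcE
    exact (hN.arsinh.div hN (norm_ne_zero_iff.2 hw)).smul contDiffAt_id

theorem injective_rcE : Function.Injective (rcE : E n → E n) := by
  intro x y h
  rw [← rcL_rcE' x, ← rcL_rcE' y, h]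

theorem fderiv_rcE_zero (z : E n) : fderiv ℝ (rcE : E n → E n) 0 z = z := by
  have h1 : HasFDerivAt (rcE : E n → E n) (fderiv ℝ (rcE : E n → E n) 0) (rcL (0 : E n)) := by
    rw [rcL_zero]
    exact ((contDiff_rcE.differentiable (by simp)) 0).hasFDerivAt
  have h2 := h1.comp (0 : E n) hasFDerivAt_rcL_zero
  have h3 : (rcE ∘ rcL : E n → E n) = id := funext rcE_rcL'
  rw [h3] at h2
  have h4 := h2.unique (hasFDerivAt_id (0 : E n))
  have h5 := congrArg (fun L : E n →L[ℝ] E n => L z) h4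
  simpa using h5

theorem image_rcE (R : ℝ) :
    (rcE : E n → E n) '' ball 0 (Real.sinh R) = ball 0 R := by
  ext v
  constructor
  · rintro ⟨y, hy, rfl⟩
    rw [mem_ball_zero_iff] at hy ⊢
    rw [rcE_norm']
    have := Real.arsinh_lt_arsinh.2 hy
    rwa [Real.arsinh_sinh] at this
  · intro hv
    rw [mem_ball_zero_iff] at hv
    refine ⟨rcL v, ?_, rcE_rcL' v⟩
    rw [mem_ball_zero_iff, rcL_norm']
    exact Real.sinh_lt_sinh.2 hv

theorem mq_fderiv_rcE {y : E n} (hy : y ≠ 0) (z : E n) :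
    mq (rcE y) (fderiv ℝ (rcE : E n → E n) y z) = hq y z := by
  have hline : HasDerivAt (fun τ : ℝ => y + τ • z) z 0 := by
    have := ((hasDerivAt_id (0 : ℝ)).smul_const z).const_add y
    simpa using this
  obtain ⟨ζ, hζ, hm⟩ := rcE_hasDeriv hline (by simp) hy
  have hf : HasFDerivAt (rcE : E n → E n) (fderiv ℝ (rcE : E n → E n) y)
      ((fun τ : ℝ => y + τ • z) 0) := by
    simpa using ((contDiff_rcE.differentiable (by simp)) y).hasFDerivAt
  have hcomp := hf.comp_hasDerivAt (0 : ℝ) hline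
  have heq : fderiv ℝ (rcE : E n → E n) y z = ζ := hcomp.unique hζ
  rw [heq, hm]

variable (G : Geo n)

/-- The differential of the exponential map at the centre is the identity, in the frame. -/
theorem T_zero (c z : E n) : G.T c 0 z = z := by
  have h1 := G.T_spec c 0 z
  have h2 := G.ex_deriv 0 c z
  rw [zero_smul, G.V_zero, G.ex_zero] at h2
  have hexs : ContDiff ℝ ∞ (G.ex c) := G.ex_smooth.comp (contDiff_const.prodMk contDiff_id)
  have hf : HasFDerivAt (G.ex c) (fderiv ℝ (G.ex c) 0) ((fun s : ℝ => s • z) 0) := by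
    simpa using ((hexs.differentiable (by simp)) 0).hasFDerivAt
  have hl : HasDerivAt (fun s : ℝ => s • z) z 0 := by
    have := (hasDerivAt_id (0 : ℝ)).smul_const z
    simpa using this
  have h3 := (hf.comp_hasDerivAt (0 : ℝ) hl).unique h2
  rw [h3, G.ex_zero] at h1
  have hdet : (G.A c).det ≠ 0 := by
    intro h0
    have := G.w_det c
    rw [h0, abs_zero, mul_zero] at this
    exact zero_ne_one this
  have hinj : Function.Injective (G.A c) := by
    have h4 : LinearMap.ker ((G.A c : E n →L[ℝ] E n) : E n →ₗ[ℝ] E n) = ⊥ := by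
      by_contra hne
      exact hdet (LinearMap.det_eq_zero_iff_ker_ne_bot.2 hne)
    exact LinearMap.ker_eq_bot.1 h4
  exact hinj h1

/-- The model metric in the hyperboloid coordinates with respect to the centre. -/
theorem norm_T_rcE {c : E n} {R : ℝ}
    (h : ∀ v : E n, v ≠ 0 → ‖v‖ < R → ∀ z, ‖G.T c v z‖ ^ 2 = mq v z)
    {y : E n} (hy : ‖y‖ < Real.sinh R) (z : E n) :
    ‖G.T c (rcE y) (fderiv ℝ (rcE : E n → E n) y z)‖ ^ 2 = hq y z := by
  rcases eq_or_ne y 0 with rfl | hy0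
  · rw [rcE_zero, fderiv_rcE_zero, T_zero]
    unfold hq
    simp
  · have hv : rcE y ≠ 0 := by
      rw [← norm_pos_iff, rcE_norm _ hy0]
      exact Real.arsinh_pos_iff.mpr (norm_pos_iff.mpr hy0)
    have hR : ‖rcE y‖ < R := by
      rw [rcE_norm']
      have := Real.arsinh_lt_arsinh.2 hy
      rwa [Real.arsinh_sinh] at this
    rw [h _ hv hR, mq_fderiv_rcE hy0]

end Vale.Agent.P219.SR
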