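import Vale.Agent.P219.TPHR.Recenter
import Vale.Agent.P219.TPH.ModelH
import Vale.Agent.P219.TP.Liou
import Vale.Agent.P219.TP.Polar

/-! # Equality case: a domain whose boundary is a geodesic sphere -/

open MeasureTheory Set Metric Filter Topology
open scoped ENNReal ContDiff Nat

namespace Vale.Agent.P219.SR

open Vale.Agent.P219.TP Vale.Agent.P219.TPH

variable {n : ℕ} (G : Geo n)

/-- A bounded open set whose frontier lies in a geodesic sphere is the geodesic ball. -/
theorem rc_eq_ball {Ω : Set (E n)} (ho : IsOpen Ω) (hb : Bornology.IsBounded Ω)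
    (hne : Ω.Nonempty) {c : E n} {R : ℝ} (hR : 0 < R)
    (hfr : ∀ q ∈ frontier Ω, ‖G.lg c q‖ = R) : Ω = G.ex c '' ball 0 R := by
  set e : E n ≃ₜ E n := exHomeo G c with he
  have hev : ∀ v, e v = G.ex c v := fun v => rfl
  set W : Set (E n) := e ⁻¹' Ω with hW
  have hWo : IsOpen W := ho.preimage e.continuous
  have hWfr : frontier W ⊆ sphere (0 : E n) R := by
    intro v hv
    rw [hW, ← e.preimage_frontier] at hv
    have h1 := hfr (e v) hv
    rw [hev, G.lg_ex] at h1
    rwa [mem_sphere_zero_iff_norm]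
  have hWne : W.Nonempty := by
    obtain ⟨y, hy⟩ := hne
    refine ⟨e.symm y, ?_⟩
    rw [hW, mem_preimage, e.apply_symm_apply]
    exact hy
  have hWb : Bornology.IsBounded W := by
    have hc : IsCompact (closure Ω) := hb.isCompact_closure
    have hc2 : IsCompact (e.symm '' closure Ω) := hc.image e.symm.continuous
    refine hc2.isBounded.subset ?_
    intro v hv
    exact ⟨e v, subset_closure hv, e.symm_apply_apply v⟩
  have hconn : ∀ t : Set (E n), IsPreconnected t → (t ∩ W).Nonempty →
      Disjoint t (sphere (0 : E n) R) → t ⊆ W := by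
    intro t ht h1 h2
    refine ht.subset_left_of_subset_union hWo isClosed_closure.isOpen_compl
      (disjoint_compl_right_iff_subset.2 subset_closure) ?_ h1
    intro y hy
    by_cases hyW : y ∈ closure W
    · left
      by_contra hyn
      have : y ∈ frontier W := ⟨hyW, by rwa [hWo.interior_eq]⟩
      exact (Set.disjoint_left.1 h2) hy (hWfr this)
    · right; exact hyW
  have hWcb : W ⊆ closedBall (0 : E n) R := by
    intro v hv
    by_contra hout
    rw [mem_closedBall_zero_iff, not_le] at hout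
    have hvpos : 0 < ‖v‖ := hR.trans hout
    have hray : (fun t : ℝ => t • v) '' Ici 1 ⊆ W := by
      refine hconn _ (isPreconnected_Ici.image _ (by fun_prop)) ?_ ?_
      · exact ⟨v, ⟨1, self_mem_Ici, by simp⟩, hv⟩
      · rw [Set.disjoint_left]
        rintro _ ⟨t, ht, rfl⟩ hs
        rw [mem_sphere_zero_iff_norm, norm_smul, Real.norm_of_nonneg (zero_le_one.trans ht)] at hs
        have : ‖v‖ ≤ t * ‖v‖ := le_mul_of_one_le_left hvpos.le ht
        linarith
    obtain ⟨M, hM⟩ := hWb.exists_norm_le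
    set t : ℝ := max 1 ((M + 1) / ‖v‖) with ht
    have h1 := hM _ (hray ⟨t, mem_Ici.2 (le_max_left _ _), rfl⟩)
    have h2 : M + 1 ≤ t * ‖v‖ := by
      rw [← div_le_iff₀ hvpos]; exact le_max_right _ _
    simp only at h1
    rw [norm_smul, Real.norm_of_nonneg (zero_le_one.trans (le_max_left _ _) : (0:ℝ) ≤ t)] at h1
    linarith
  have hWb' : W ⊆ ball (0 : E n) R := by
    rw [← interior_closedBall _ hR.ne']
    exact hWo.subset_interior_iff.2 hWcb
  have hWeq : W = ball (0 : E n) R := by
    refine Subset.antisymm hWb' (hconn _ (convex_ball _ _).isPreconnected ?_ ?_)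
    · obtain ⟨v, hv⟩ := hWne
      exact ⟨v, hWb' hv, hv⟩
    · rw [Set.disjoint_left]
      intro y h1 h2
      rw [mem_ball] at h1
      rw [mem_sphere] at h2
      linarith
  have hΩ : Ω = e '' ball (0 : E n) R := by
    rw [← hWeq, hW, e.image_preimage]
  exact hΩ

/-- Volume of the image under the exponential map. -/
theorem rc_vol (c : E n) {S : Set (E n)} (hS : MeasurableSet S) :
    G.vol (G.ex c '' S) = ∫⁻ v in S, ENNReal.ofReal |(G.T c v).det| := by
  have hm : MeasurableSet (G.ex c '' S) :=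
    (exHomeo G c).measurableEmbedding.measurableSet_image.2 hS
  rw [← lintegral_indicator_one hm, G.lintegral_vol_ex c (measurable_one.indicator hm),
    ← lintegral_indicator hS]
  refine lintegral_congr fun v => ?_
  by_cases hv : v ∈ S
  · have h1 : G.ex c v ∈ G.ex c '' S := ⟨v, hv, rfl⟩
    rw [indicator_of_mem hv, indicator_of_mem h1, Pi.one_apply, mul_one]
  · have h1 : G.ex c v ∉ G.ex c '' S := by
      rintro ⟨v', hv', h⟩
      have h2 := congrArg (G.lg c) h
      rw [G.lg_ex, G.lg_ex] at h2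
      exact hv (h2 ▸ hv')
    rw [indicator_of_notMem hv, indicator_of_notMem h1, mul_zero]

/-- The volume of the model ball, in normal coordinates. -/
theorem rc_model_vol (hn : 1 ≤ n) {k : ℝ} (hk : 0 ≤ k) {R : ℝ} (hR : 0 < R) :
    ∫⁻ v in ball (0 : E n) R, ENNReal.ofReal ((sn k ‖v‖ / ‖v‖) ^ (n - 1)) =
      ENNReal.ofReal (VR n k R) := by
  have hsn : Continuous (sn k) := (contDiff_sn k).continuous
  have hmeas : Measurable fun v : E n => ENNReal.ofReal ((sn k ‖v‖ / ‖v‖) ^ (n - 1)) :=
    (((hsn.measurable.comp measurable_norm).div measurable_norm).pow_const _).ennreal_ofReal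
  rw [← lintegral_indicator measurableSet_ball, polar hn (hmeas.indicator measurableSet_ball)]
  have h1 : ∀ u : sphere (0 : E n) 1, ∫⁻ r in Ioi (0 : ℝ), ENNReal.ofReal (r ^ (n - 1)) *
      (ball (0 : E n) R).indicator (fun v => ENNReal.ofReal ((sn k ‖v‖ / ‖v‖) ^ (n - 1)))
        (r • (u : E n)) = ENNReal.ofReal (∫ r in (0 : ℝ)..R, sn k r ^ (n - 1)) := by
    intro u
    have hu : ‖(u : E n)‖ = 1 := by simp
    have hnorm : ∀ r : ℝ, 0 < r → ‖r • (u : E n)‖ = r := fun r hr => by
      rw [norm_smul, hu, mul_one, Real.norm_of_nonneg hr.le]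
    rw [intervalIntegral.integral_of_le hR.le, integral_Ioc_eq_integral_Ioo,
      ofReal_integral_eq_lintegral_ofReal]
    · have hsub : Ioo (0 : ℝ) R ⊆ Ioi 0 := fun r hr => hr.1
      rw [← lintegral_indicator measurableSet_Ioi, ← lintegral_indicator measurableSet_Ioo]
      refine lintegral_congr fun r => ?_
      by_cases hr : r ∈ Ioo (0 : ℝ) R
      · have hr0 : 0 < r := hr.1
        have hmem : r • (u : E n) ∈ ball (0 : E n) R := by
          rw [mem_ball_zero_iff, hnorm r hr0]; exact hr.2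
        rw [indicator_of_mem hr, indicator_of_mem (hsub hr), indicator_of_mem hmem, hnorm r hr0,
          ← ENNReal.ofReal_mul (pow_nonneg hr0.le _), div_pow]
        congr 1
        field_simp
      · rw [indicator_of_notMem hr]
        by_cases hr0 : r ∈ Ioi (0 : ℝ)
        · have hnm : r • (u : E n) ∉ ball (0 : E n) R := by
            rw [mem_ball_zero_iff, hnorm r hr0]
            exact fun h => hr ⟨hr0, h⟩
          rw [indicator_of_mem hr0, indicator_of_notMem hnm, mul_zero]
        · rw [indicator_of_notMem hr0]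
    · exact ((hsn.pow _).integrableOn_Icc).mono_set Ioo_subset_Icc_self
    · filter_upwards [self_mem_ae_restrict measurableSet_Ioo] with r hr
      exact pow_nonneg (sn_pos hk hr.1).le _
  simp only [h1]
  rw [lintegral_const, VR, sig, ENNReal.ofReal_mul measureReal_nonneg, measureReal_def,
    ENNReal.ofReal_toReal (measure_ne_top _ _), mul_comm]

/-- Equality in the volume comparison forces the model determinant. -/
theorem rc_det (hn : 1 ≤ n) {k : ℝ} (hk : 0 ≤ k) {c : E n}
    (hJ : ∀ v : E n, v ≠ 0 → sn k ‖v‖ ^ (n - 1) ≤ ‖v‖ ^ (n - 1) * |(G.T c v).det|)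
    {R : ℝ} (hR : 0 < R)
    (hV : G.vol (G.ex c '' ball 0 R) ≤ ENNReal.ofReal (VR n k R)) {v : E n}
    (hv : v ∈ ball (0 : E n) R) (hv0 : v ≠ 0) :
    |(G.T c v).det| * ‖v‖ ^ (n - 1) = sn k ‖v‖ ^ (n - 1) := by
  rw [rc_vol G c measurableSet_ball, ← rc_model_vol hn hk hR] at hV
  have hsn : Continuous (sn k) := (contDiff_sn k).continuous
  have hdet : Continuous fun v => |(G.T c v).det| := by
    have h1 : ContDiff ℝ ∞ fun v => G.T c v :=
      G.T_smooth.comp (contDiff_const.prodMk contDiff_id)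
    exact (ContinuousLinearMap.continuous_det.comp h1.continuous).abs
  have hle : ∀ v : E n, v ≠ 0 → (sn k ‖v‖ / ‖v‖) ^ (n - 1) ≤ |(G.T c v).det| := by
    intro v hv
    have h1 := hJ v hv
    have h2 : 0 < ‖v‖ ^ (n - 1) := pow_pos (norm_pos_iff.2 hv) _
    rw [div_pow, div_le_iff₀ h2]
    linarith
  have hmeas : Measurable fun v : E n => ENNReal.ofReal ((sn k ‖v‖ / ‖v‖) ^ (n - 1)) :=
    (((hsn.measurable.comp measurable_norm).div measurable_norm).pow_const _).ennreal_ofReal
  have hmeas2 : Measurable fun v : E n => ENNReal.ofReal |(G.T c v).det| :=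
    hdet.measurable.ennreal_ofReal
  have hae0 : ∀ᵐ v ∂(volume.restrict (ball (0 : E n) R)), v ≠ 0 := by
    have : Nonempty (Fin n) := ⟨⟨0, by omega⟩⟩
    have hnt : Nontrivial (E n) := inferInstance
    exact ae_restrict_of_ae (by
      rw [ae_iff]
      simp only [ne_eq, not_not]
      have : {v : E n | v = 0} = {0} := rfl
      rw [this, measure_singleton])
  have hae : (fun v : E n => ENNReal.ofReal ((sn k ‖v‖ / ‖v‖) ^ (n - 1)))
      =ᵐ[volume.restrict (ball (0 : E n) R)] fun v => ENNReal.ofReal |(G.T c v).det| := by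
    refine ae_eq_of_ae_le_of_lintegral_le ?_ ?_ hmeas2.aemeasurable hV
    · filter_upwards [hae0] with v hv
      exact ENNReal.ofReal_le_ofReal (hle v hv)
    · rw [rc_model_vol hn hk hR]
      exact ENNReal.ofReal_ne_top
  have hae' : (fun v : E n => (sn k ‖v‖ / ‖v‖) ^ (n - 1))
      =ᵐ[volume.restrict (ball (0 : E n) R \ {0})] fun v => |(G.T c v).det| := by
    have h1 := ae_mono (Measure.restrict_mono (sdiff_subset (s := ball (0 : E n) R) (t := {0}))
      (le_refl (volume : Measure (E n)))) hae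
    filter_upwards [h1] with v hv
    have h2 : (0 : ℝ) ≤ (sn k ‖v‖ / ‖v‖) ^ (n - 1) :=
      pow_nonneg (div_nonneg (modelH_sn_nonneg hk (norm_nonneg _)) (norm_nonneg _)) _
    exact (ENNReal.ofReal_eq_ofReal_iff h2 (abs_nonneg _)).1 hv
  have hopen : IsOpen (ball (0 : E n) R \ {0}) := isOpen_ball.sdiff isClosed_singleton
  have hcont : ContinuousOn (fun v : E n => (sn k ‖v‖ / ‖v‖) ^ (n - 1))
      (ball (0 : E n) R \ {0}) := by
    refine ContinuousOn.pow (ContinuousOn.div (hsn.comp continuous_norm).continuousOn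
      continuous_norm.continuousOn fun v hv => ?_) _
    exact norm_ne_zero_iff.2 fun h => hv.2 h
  have heq := Measure.eqOn_open_of_ae_eq hae' hopen hcont hdet.continuousOn ⟨hv, hv0⟩
  simp only at heq
  have h2 : 0 < ‖v‖ ^ (n - 1) := pow_pos (norm_pos_iff.2 hv0) _
  rw [← heq, div_pow, div_mul_cancel₀ _ h2.ne']

/-- Flat case: the exponential map is an isometry on the ball. -/
theorem rc_flat (hn : 1 ≤ n) {c : E n} {R : ℝ} (hR : 0 < R)
    (hV : G.vol (G.ex c '' ball 0 R) ≤ ENNReal.ofReal (VR n 0 R)) {v : E n}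
    (hv : v ∈ ball (0 : E n) R) (z : E n) : ‖G.T c v z‖ = ‖z‖ := by
  rcases eq_or_ne v 0 with rfl | hv0
  · rw [G.T_zero]
  · have h1 := rc_det G hn le_rfl (fun w _ => by
      have h6 : sn 0 ‖w‖ = ‖w‖ := by simp [sn]
      rw [h6]
      exact le_mul_of_one_le_right (pow_nonneg (norm_nonneg _) _) (G.one_le_J c w)) hR hV hv hv0
    have h2 : 0 < ‖v‖ ^ (n - 1) := pow_pos (norm_pos_iff.2 hv0) _
    have h3 : sn 0 ‖v‖ = ‖v‖ := by simp [sn]
    rw [h3] at h1
    have h4 : |(G.T c v).det| = 1 := by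
      have h5 : |(G.T c v).det| * ‖v‖ ^ (n - 1) = 1 * ‖v‖ ^ (n - 1) := by rw [h1, one_mul]
      exact mul_right_cancel₀ h2.ne' h5
    exact isometry_of_det G c v h4 z

/-- Curvature `-1`: the metric is the model metric on the ball. -/
theorem rc_hyp (hn : 2 ≤ n) (hG : Curv G 1) {c : E n} {R : ℝ} (hR : 0 < R)
    (hV : G.vol (G.ex c '' ball 0 R) ≤ ENNReal.ofReal (VR n 1 R)) {v : E n}
    (hv : v ∈ ball (0 : E n) R) (hv0 : v ≠ 0) (z : E n) : ‖G.T c v z‖ ^ 2 = mq v z := by
  have h1 := rc_det G (by omega) zero_le_one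
    (fun w hw => sn_le_J (by omega) zero_le_one hG hw) hR hV hv hv0
  rw [bridge_sn] at h1
  exact model_of_det G hn hG c hv0 h1 z

end Vale.Agent.P219.SR
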