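import Vale.Agent.P219.TPHR.Recenter

/-! # Hyperboloid coordinates about the center -/

open MeasureTheory Set Metric Filter Topology
open scoped ENNReal ContDiff Nat

namespace Vale.Agent.P219.SR

open Vale.Agent.P219.TP Vale.Agent.P219.TPH

variable {n : ℕ}

/-- The coefficients of `sinh √x / √x`. -/
noncomputable def rhc (j : ℕ) : ℝ := ((2 * j + 1)! : ℝ)⁻¹

/-- The power series of `sinh √x / √x`. -/
noncomputable def rhp : FormalMultilinearSeries ℝ ℝ ℝ := FormalMultilinearSeries.ofScalars ℝ rhc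

theorem rhp_radius : rhp.radius = ⊤ := by
  refine FormalMultilinearSeries.ofScalars_radius_eq_top_of_tendsto ℝ rhc
    (Eventually.of_forall fun j => ?_) ?_
  · exact inv_ne_zero (by positivity)
  · have h1 : ∀ j : ℕ, ‖rhc j.succ‖ / ‖rhc j‖ = (((2 * j + 3 : ℕ) : ℝ) * ((2 * j + 2 : ℕ) : ℝ))⁻¹ := by
      intro j
      have e1 : 2 * j.succ + 1 = (2 * j + 2) + 1 := by simp [Nat.succ_eq_add_one]; ring
      have e2 : 2 * j + 2 = (2 * j + 1) + 1 := rfl
      unfold rhc
      rw [Real.norm_of_nonneg (by positivity), Real.norm_of_nonneg (by positivity), e1,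
        Nat.factorial_succ (2 * j + 2), e2, Nat.factorial_succ (2 * j + 1)]
      push_cast
      have : ((2 * j + 1)! : ℝ) ≠ 0 := by positivity
      field_simp
      ring
    rw [tendsto_congr h1]
    have h2 : Tendsto (fun j : ℕ => ((2 * j + 3 : ℕ) : ℝ)) atTop atTop :=
      tendsto_natCast_atTop_atTop.comp (tendsto_atTop_mono (fun j => by simp only [id]; omega) tendsto_id)
    have h3 : Tendsto (fun j : ℕ => ((2 * j + 2 : ℕ) : ℝ)) atTop atTop :=
      tendsto_natCast_atTop_atTop.comp (tendsto_atTop_mono (fun j => by simp only [id]; omega) tendsto_id)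
    exact (h2.atTop_mul_atTop₀ h3).inv_tendsto_atTop

/-- `sinh √x / √x`, an entire function. -/
noncomputable def rhS (x : ℝ) : ℝ := rhp.sum x

theorem rhS_smooth : ContDiff ℝ ∞ rhS := by
  have h1 : HasFPowerSeriesOnBall rhp.sum rhp 0 rhp.radius :=
    rhp.hasFPowerSeriesOnBall (by rw [rhp_radius]; exact ENNReal.coe_lt_top)
  rw [rhp_radius] at h1
  have h2 : AnalyticOnNhd ℝ rhS univ := by
    intro x _
    exact h1.analyticAt_of_mem (by simp)
  exact contDiffOn_univ.1 (h2.contDiffOn (uniqueDiffOn_univ)) |>.of_le le_top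

theorem rhS_sq {t : ℝ} (ht : t ≠ 0) : rhS (t ^ 2) = Real.sinh t / t := by
  have h1 : rhS (t ^ 2) = ∑' j : ℕ, rhc j • (t ^ 2) ^ j :=
    FormalMultilinearSeries.ofScalars_sum_eq rhc (t ^ 2)
  rw [h1]
  have h2 := (Real.hasSum_sinh t).div_const t
  have h3 : (fun j : ℕ => rhc j • (t ^ 2) ^ j) =
      fun j : ℕ => t ^ (2 * j + 1) / ((2 * j + 1)! : ℝ) / t := by
    funext j
    unfold rhc
    rw [smul_eq_mul, ← pow_mul, pow_succ]
    field_simp
  rw [h3]
  exact h2.tsum_eq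

theorem rhS_zero : rhS 0 = 1 := by
  have h1 : rhS 0 = rhc 0 • (1 : ℝ) := FormalMultilinearSeries.ofScalarsSum_zero rhc
  rw [h1]
  simp [rhc]

theorem rcL_eq (v : E n) : rcL v = rhS (‖v‖ ^ 2) • v := by
  rcases eq_or_ne v 0 with rfl | hv
  · simp [rcL]
  · unfold rcL
    rw [rhS_sq (norm_ne_zero_iff.2 hv)]

theorem rcL_smooth : ContDiff ℝ ∞ (rcL : E n → E n) := by
  have h1 : (rcL : E n → E n) = fun v => rhS (‖v‖ ^ 2) • v := funext rcL_eq
  rw [h1]
  exact (rhS_smooth.comp (contDiff_norm_sq ℝ)).smul contDiff_id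

theorem rcL_hasFDerivAt_zero :
    HasFDerivAt (rcL : E n → E n) (ContinuousLinearMap.id ℝ (E n)) 0 := by
  have h1 : (rcL : E n → E n) = fun v => rhS (‖v‖ ^ 2) • v := funext rcL_eq
  rw [h1]
  have h2 : DifferentiableAt ℝ (fun v : E n => rhS (‖v‖ ^ 2)) 0 :=
    (rhS_smooth.comp (contDiff_norm_sq ℝ)).differentiable (by simp) 0
  have h3 := h2.hasFDerivAt.smul (hasFDerivAt_id (𝕜 := ℝ) (0 : E n))
  refine h3.congr_fderiv ?_
  ext z
  simp [rhS_zero]

theorem rcL_zero : rcL (0 : E n) = 0 := by simp [rcL]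

theorem rcE_zero : rcE (0 : E n) = 0 := by simp [rcE]

theorem rcE_rcL' (v : E n) : rcE (rcL v) = v := by
  rcases eq_or_ne v 0 with rfl | hv
  · rw [rcL_zero, rcE_zero]
  · exact rcE_rcL v hv

theorem rcL_rcE' (w : E n) : rcL (rcE w) = w := by
  rcases eq_or_ne w 0 with rfl | hw
  · rw [rcE_zero, rcL_zero]
  · exact rcL_rcE w hw

theorem rcE_norm' (w : E n) : ‖rcE w‖ = Real.arsinh ‖w‖ := by
  rcases eq_or_ne w 0 with rfl | hw
  · rw [rcE_zero, norm_zero, Real.arsinh_zero]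
  · exact rcE_norm w hw

/-- Normal coordinates are a smooth function of hyperboloid coordinates. -/
theorem rcE_smooth : ContDiff ℝ ∞ (rcE : E n → E n) := by
  rw [contDiff_iff_contDiffAt]
  intro w
  rcases eq_or_ne w 0 with rfl | hw
  · have hd : HasFDerivAt (rcL : E n → E n)
        ((ContinuousLinearEquiv.refl ℝ (E n) : E n ≃L[ℝ] E n) : E n →L[ℝ] E n) 0 :=
      rcL_hasFDerivAt_zero
    have h1 : ContDiffAt ℝ ∞ (rcL : E n → E n) 0 := rcL_smooth.contDiffAt
    have h2 := h1.to_localInverse hd (by simp)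
    have h3 := h1.hasStrictFDerivAt' hd (by simp)
    have h4 := h3.localInverse_unique (g := rcE) (Eventually.of_forall rcE_rcL')
    rw [rcL_zero] at h2 h4
    exact h2.congr_of_eventuallyEq h4
  · have hopen : ∀ᶠ y in 𝓝 w, y ≠ 0 := isOpen_ne.mem_nhds hw
    unfold rcE
    have hn : ContDiffAt ℝ ∞ (fun y : E n => ‖y‖) w := contDiffAt_id.norm ℝ hw
    exact (hn.arsinh.div hn (norm_ne_zero_iff.2 hw)).smul contDiffAt_id

theorem rcE_fderiv_zero : fderiv ℝ (rcE : E n → E n) 0 = ContinuousLinearMap.id ℝ (E n) := by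
  have h1 : DifferentiableAt ℝ (rcE : E n → E n) 0 := rcE_smooth.differentiable (by simp) 0
  have h2 : HasFDerivAt (rcL : E n → E n) (ContinuousLinearMap.id ℝ (E n)) (rcE (0 : E n)) := by
    rw [rcE_zero]; exact rcL_hasFDerivAt_zero
  have h3 := h2.comp (0 : E n) h1.hasFDerivAt
  have h4 : (rcL ∘ rcE : E n → E n) = id := funext rcL_rcE'
  rw [h4] at h3
  have h5 := h3.unique (hasFDerivAt_id (𝕜 := ℝ) (0 : E n))
  rwa [ContinuousLinearMap.id_comp] at h5

theorem rcE_metric {y : E n} (hy : y ≠ 0) (z : E n) :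
    mq (rcE y) (fderiv ℝ rcE y z) = hq y z := by
  have hline : HasDerivAt (fun τ : ℝ => y + τ • z) z 0 := by
    have := ((hasDerivAt_id (0 : ℝ)).smul_const z).const_add y
    simpa using this
  have hW0 : (fun τ : ℝ => y + τ • z) 0 = y := by simp
  obtain ⟨ζ, hζ, hm⟩ := rcE_hasDeriv hline hW0 hy
  have hd : DifferentiableAt ℝ (rcE : E n → E n) y := rcE_smooth.differentiable (by simp) y
  have hf : HasFDerivAt (rcE : E n → E n) (fderiv ℝ rcE y) ((fun τ : ℝ => y + τ • z) 0) := by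
    simpa using hd.hasFDerivAt
  have hcomp := hf.comp_hasDerivAt (0 : ℝ) hline
  have heq : fderiv ℝ rcE y z = ζ := hcomp.unique hζ
  rw [heq, hm]

theorem rcE_injective : Function.Injective (rcE : E n → E n) := fun y y' h => by
  rw [← rcL_rcE' y, ← rcL_rcE' y', h]

theorem rcE_image {R : ℝ} : rcE '' ball (0 : E n) (Real.sinh R) = ball 0 R := by
  ext v
  constructor
  · rintro ⟨y, hy, rfl⟩
    rw [mem_ball_zero_iff] at hy ⊢
    rw [rcE_norm', ← Real.arsinh_sinh R]
    exact Real.arsinh_lt_arsinh.2 hy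
  · intro hv
    rw [mem_ball_zero_iff] at hv
    refine ⟨rcL v, ?_, rcE_rcL' v⟩
    rw [mem_ball_zero_iff]
    rcases eq_or_ne v 0 with rfl | hv0
    · rw [rcL_zero, norm_zero]
      rw [norm_zero] at hv
      exact Real.sinh_pos_iff.2 hv
    · rw [rcL_norm v hv0]
      exact Real.sinh_lt_sinh.2 hv

/-- The metric in hyperboloid coordinates about the center. -/
theorem rc_chart (G : Geo n) {c : E n} {R : ℝ}
    (hT : ∀ v ∈ ball (0 : E n) R, v ≠ 0 → ∀ z, ‖G.T c v z‖ ^ 2 = mq v z) {y : E n}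
    (hy : y ∈ ball (0 : E n) (Real.sinh R)) (u : E n) :
    ‖G.T c (rcE y) (fderiv ℝ rcE y u)‖ ^ 2 = hq y u := by
  rcases eq_or_ne y 0 with rfl | hy0
  · rw [rcE_zero, G.T_zero, rcE_fderiv_zero]
    simp [hq]
  · have h1 : rcE y ∈ ball (0 : E n) R := by
      rw [← rcE_image]
      exact ⟨y, hy, rfl⟩
    have h2 : rcE y ≠ 0 := by
      intro h
      exact hy0 (rcE_injective (h.trans rcE_zero.symm))
    rw [hT _ h1 h2, rcE_metric hy0]

end Vale.Agent.P219.SR
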