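import Vale.Agent.P219.SR.RigCenter
import Vale.Agent.P219.SR.RigChart
import Vale.Agent.P219.CHH.ToGeoH
import Vale.Agent.P219.TP.Moments
import Vale.Agent.P219.TPH.BridgeH

/-! # Equality case: a domain whose boundary is a geodesic sphere is a model ball -/

open MeasureTheory Set Metric Filter Topology
open scoped ENNReal ContDiff

noncomputable section

namespace Vale.Agent.P219.CH

variable {n : ℕ}

theorem rcm_vol (M : RiemMetric n) (e : Fin n → E n → E n) (he : TriangularFrame M e)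
    (hs : SecLE M 0) (F : GFlow M.g) {S : Set (E n)} (hS : MeasurableSet S) :
    (toGeo M e he hs F).vol S = riemVol M S := by
  have h1 : (toGeo M e he hs F).vol =
      volume.withDensity fun x => ENNReal.ofReal (volDensity M x) := rfl
  rw [h1, withDensity_apply _ hS]
  rfl

theorem rcm_ne (M : RiemMetric n) (D : SmoothDomain n) {V : ℝ} (hV0 : 0 < V)
    (hV : riemVol M D.carrier = ENNReal.ofReal V) : D.carrier.Nonempty := by
  rw [nonempty_iff_ne_empty]
  intro h0
  rw [h0] at hV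
  unfold riemVol at hV
  rw [Measure.restrict_empty, lintegral_zero_measure] at hV
  have := ENNReal.ofReal_pos.2 hV0
  rw [← hV] at this
  exact lt_irrefl _ this

theorem rcm_vol0 (hn : 1 ≤ n) (r : ℝ) : modelVol n 0 r = TPH.VR n 0 r := by
  have h1 : ∀ t : ℝ, sn √(-0) t = TPH.sn 0 t := by
    intro t
    simp [sn, TPH.sn]
  unfold modelVol TPH.VR
  rw [TP.sig_eq hn, om_eq]
  simp only [h1]

theorem rcm_vol1 (hn : 1 ≤ n) (r : ℝ) : modelVol n (-1) r = TPH.VR n 1 r := by
  have h1 : ∀ t : ℝ, sn √(-(-1)) t = TPH.sn 1 t := by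
    intro t
    unfold sn TPH.sn
    rw [neg_neg, Real.sqrt_one]
  unfold modelVol TPH.VR
  rw [TP.sig_eq hn, om_eq]
  simp only [h1]

/-- Equality case, `K = 0`: the geometric end. -/
theorem rig_center_flat (hn : 2 ≤ n) (M : RiemMetric n) (e : Fin n → E n → E n)
    (he : TriangularFrame M e) (hs : SecLE M 0) (F : GFlow M.g) (D : SmoothDomain n) {r : ℝ}
    (hr : 0 < r) (c : E n) (hfr : ∀ q ∈ frontier D.carrier, ‖(toGeo M e he hs F).lg c q‖ = r)
    (hV : riemVol M D.carrier = ENNReal.ofReal (modelVol n 0 r)) :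
    ∃ φ : E n → E n, ContDiff ℝ ∞ φ ∧ InjOn φ (ball 0 r) ∧ φ '' ball 0 r = D.carrier ∧
      ∀ x ∈ ball (0 : E n) r, ∀ u v,
        M.g (φ x) (fderiv ℝ φ x u) (fderiv ℝ φ x v) = inner ℝ u v := by
  set G := toGeo M e he hs F with hG
  have hn1 : 1 ≤ n := by omega
  have hopen : IsOpen D.carrier := isOpen_lt D.smooth.continuous continuous_const
  have hVpos : 0 < TPH.VR n 0 r := by
    have h1 := TPH.VR_strictMonoOn (k := 0) hn1 le_rfl (mem_Ici.2 le_rfl) (mem_Ici.2 hr.le) hr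
    rwa [TPH.VR_zero] at h1
  rw [rcm_vol0 hn1] at hV
  have hne : D.carrier.Nonempty := rcm_ne M D hVpos hV
  have hball : D.carrier = G.ex c '' ball 0 r := SR.rc_eq_ball G hopen D.bdd hne hr hfr
  have hVG : G.vol (G.ex c '' ball 0 r) ≤ ENNReal.ofReal (TPH.VR n 0 r) := by
    rw [← hball, ← hV]
    exact (rcm_vol M e he hs F hopen.measurableSet).le
  have hT : ∀ v ∈ ball (0 : E n) r, ∀ z, ‖G.T c v z‖ = ‖z‖ := fun v hv z =>
    SR.rc_flat G hn1 hr hVG hv z
  have hexs : ContDiff ℝ ∞ (G.ex c) := G.ex_smooth.comp (contDiff_const.prodMk contDiff_id)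
  refine ⟨G.ex c, hexs, ?_, hball.symm, ?_⟩
  · intro x _ y _ hxy
    have h1 := congrArg (G.lg c) hxy
    simpa only [G.lg_ex] using h1
  · intro x hx u v
    have hfd : ∀ u, fderiv ℝ (G.ex c) x u = frA e (G.ex c x) (G.T c x u) := fun u =>
      (G.T_spec c x u).symm
    rw [hfd, hfd]
    have h1 : M.g (G.ex c x) (frA e (G.ex c x) (G.T c x u)) (frA e (G.ex c x) (G.T c x v)) =
        inner ℝ (G.T c x u) (G.T c x v) := g_frA he _ _ _
    refine h1.trans ?_
    let L : E n →ₗᵢ[ℝ] E n := ⟨(G.T c x).toLinearMap, hT x hx⟩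
    exact L.inner_map_map u v

/-- Equality case, `K = -1`: the geometric end. -/
theorem rig_center_hyp (hn : 2 ≤ n) (M : RiemMetric n) (e : Fin n → E n → E n)
    (he : TriangularFrame M e) (hs : SecLE M (-1)) (F : GFlow M.g) (D : SmoothDomain n) {r : ℝ}
    (hr : 0 < r) (c : E n)
    (hfr : ∀ q ∈ frontier D.carrier, ‖(toGeo M e he (secLE_zero hs) F).lg c q‖ = r)
    (hV : riemVol M D.carrier = ENNReal.ofReal (modelVol n (-1) r)) :
    ∃ φ : E n → E n, ContDiffOn ℝ ∞ φ (ball 0 (Real.sinh r)) ∧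
      InjOn φ (ball 0 (Real.sinh r)) ∧ φ '' ball 0 (Real.sinh r) = D.carrier ∧
      ∀ y ∈ ball (0 : E n) (Real.sinh r), ∀ u v,
        M.g (φ y) (fderiv ℝ φ y u) (fderiv ℝ φ y v) =
          inner ℝ u v - inner ℝ y u * inner ℝ y v / (1 + ‖y‖ ^ 2) := by
  have hs0 : SecLE M 0 := secLE_zero hs
  have hcurv : TPH.Curv (toGeo M e he hs0 F) 1 := TPH.curv_of_geoH (toGeoH M e he hs F hn)
  set G := toGeo M e he hs0 F with hG
  have hn1 : 1 ≤ n := by omega
  have hopen : IsOpen D.carrier := isOpen_lt D.smooth.continuous continuous_const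
  have hVpos : 0 < TPH.VR n 1 r := by
    have h1 := TPH.VR_strictMonoOn (k := 1) hn1 zero_le_one (mem_Ici.2 le_rfl)
      (mem_Ici.2 hr.le) hr
    rwa [TPH.VR_zero] at h1
  rw [rcm_vol1 hn1] at hV
  have hne : D.carrier.Nonempty := rcm_ne M D hVpos hV
  have hball : D.carrier = G.ex c '' ball 0 r := SR.rc_eq_ball G hopen D.bdd hne hr hfr
  have hVG : G.vol (G.ex c '' ball 0 r) ≤ ENNReal.ofReal (TPH.VR n 1 r) := by
    rw [← hball, ← hV]
    exact (rcm_vol M e he hs0 F hopen.measurableSet).le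
  have hT : ∀ v ∈ ball (0 : E n) r, v ≠ 0 → ∀ z, ‖G.T c v z‖ ^ 2 = TPH.mq v z :=
    fun v hv hv0 z => SR.rc_hyp G hn hcurv hr hVG hv hv0 z
  have hexs : ContDiff ℝ ∞ (G.ex c) := G.ex_smooth.comp (contDiff_const.prodMk contDiff_id)
  have hinj : Function.Injective (G.ex c) := by
    intro x y hxy
    have h1 := congrArg (G.lg c) hxy
    simpa only [G.lg_ex] using h1
  refine ⟨fun y => G.ex c (TPH.rcE y), (hexs.comp SR.rcE_smooth).contDiffOn, ?_, ?_, ?_⟩
  · intro x _ y _ hxy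
    exact SR.rcE_injective (hinj hxy)
  · have h1 : (fun y => G.ex c (TPH.rcE y)) '' ball 0 (Real.sinh r) =
        G.ex c '' (TPH.rcE '' ball 0 (Real.sinh r)) := by rw [image_image]
    rw [h1, SR.rcE_image, ← hball]
  · intro y hy u v
    have hΨd : DifferentiableAt ℝ (TPH.rcE : E n → E n) y :=
      SR.rcE_smooth.differentiable (by simp) y
    have hexd : DifferentiableAt ℝ (G.ex c) (TPH.rcE y) := hexs.differentiable (by simp) _
    set L : E n →L[ℝ] E n := (G.T c (TPH.rcE y)).comp (fderiv ℝ TPH.rcE y) with hL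
    have hfd : ∀ u, fderiv ℝ (fun y => G.ex c (TPH.rcE y)) y u =
        frA e (G.ex c (TPH.rcE y)) (L u) := by
      intro u
      have h1 : fderiv ℝ (fun y => G.ex c (TPH.rcE y)) y =
          (fderiv ℝ (G.ex c) (TPH.rcE y)).comp (fderiv ℝ TPH.rcE y) := fderiv_comp y hexd hΨd
      rw [h1, ContinuousLinearMap.comp_apply]
      exact (G.T_spec c (TPH.rcE y) (fderiv ℝ TPH.rcE y u)).symm
    have hn2 : ∀ u, ‖L u‖ ^ 2 = ‖u‖ ^ 2 - inner ℝ y u ^ 2 / (1 + ‖y‖ ^ 2) := by
      intro u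
      exact SR.rc_chart G hT hy u
    rw [hfd, hfd]
    have h1 : M.g (G.ex c (TPH.rcE y)) (frA e (G.ex c (TPH.rcE y)) (L u))
        (frA e (G.ex c (TPH.rcE y)) (L v)) = inner ℝ (L u) (L v) := g_frA he _ _ _
    refine h1.trans ?_
    have h2 := hn2 (u + v)
    rw [map_add, norm_add_sq_real, norm_add_sq_real, hn2 u, hn2 v, inner_add_right] at h2
    have h3 : (1 + ‖y‖ ^ 2) ≠ 0 := by positivity
    field_simp at h2 ⊢
    linarith

end Vale.Agent.P219.CH
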