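import Vale.Agent.P219.SR.RigMain
import Vale.Agent.P219.SA.Fin
import Vale.Agent.P219.End.Dim3

/-! # The functional inequality and the equality case on the limit, dimension at least three -/

open MeasureTheory Set Metric Filter Topology
open scoped ENNReal NNReal ContDiff

noncomputable section

namespace Vale.Agent.P219.SA

open Vale.Agent.P219.TP Vale.Agent.P219.TPH
open Vale.Agent.P219.End (FG KS)

variable {n : ℕ} {k : ℝ}

theorem limMk_of (hdf : DensFieldStmt n) (hn : 4 ≤ n) (hk : 0 ≤ k) : LimMk n k := by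
  intro G hG o ρ I J R U h V hρ hR hU hImono hIcont hI0 hIz hIR hId hm hV hVp
  obtain ⟨L, h1, h2, h3, h4, h5, h6, h7⟩ := exists_Lim' G hdf hn hk hG hρ hImono hIcont hR hId hm hV
    hVp
  refine ⟨L, h4, h1, h2, h3, fun c x => ?_⟩
  rw [h5]
  exact (End.sn_sq_eq_FG G k c x).symm

theorem funcIso_four (hdf : DensFieldStmt n) (hn : 4 ≤ n) (hk : 0 ≤ k) (sob : LimSob n) :
    FuncIso n k :=
  funcIso_of_mk (by omega) hk (sg_eq_sig (by omega)) (limMk_of hdf hn hk) sob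

theorem limRig_four (hdf : DensFieldStmt n) (hn : 4 ≤ n) (hk : 0 ≤ k) (sob : LimSob n) :
    LimRig n k :=
  limRig_of_mk (by omega) hk (sg_eq_sig (by omega)) (limMk_of hdf hn hk) sob

/-- The density field, dimension at least two. -/
theorem dens_FG (G : Geo n) (hdf : DensFieldStmt n) (hn : 2 ≤ n) (hk : 0 ≤ k)
    {o : E n} {ρ : ℝ} (hρ : 0 < ρ) {I : ℝ → ℝ} {J R : ℝ} {U : Ultrafilter ℕ}
    {h : ℕ → E n → ℝ} {V : Measure (E n × E n)} (hImono : MonotoneOn I (Ici 0))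
    (hIcont : ContinuousOn I (Ici 0)) (hR : 0 < R)
    (hId : HasStrictDerivAt I (H0 n k R) (VR n k R)) (hm : MinSeq G o ρ I J (VR n k R) U h)
    (hV : IsLim G o ρ U h V) :
    ∀ p, (∀ e > 0, 0 < V {z | FG G k p z.1 < e}) → ∀ e > 0, ∃ ε₀ > 0, ∀ ε, 0 < ε →
      ε < ε₀ → End.sg ((n : ℝ) - 1) - e ≤
        ∫ z, End.bub (k ^ 2) (FG G k p) ε z.1 ^ ((n : ℝ) - 1) ∂V := by
  have hVR : 0 < VR n k R := by
    have h1 := (VR_strictMonoOn (n := n) (k := k) (by omega) hk) (mem_Ici.2 le_rfl)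
      (mem_Ici.2 hR.le) hR
    rwa [VR_zero] at h1
  have := hV.fin
  refine hdf G hk hρ (H0_nonneg (by omega) hk hR) hV.supp
    (stat_FG G (by omega) le_rfl (MonoSn.zero G) hk hR hImono hVR hId hm hV) ?_
  intro x hx e he T
  exact dens_lim G (by omega) hImono hIcont hm hV x hx he T

/-- Dimension three: the mass of the limit. -/
theorem three_main (G : Geo 3) (hG : MonoSn G k) (hdf : DensFieldStmt 3) (hk : 0 ≤ k)
    {o : E 3} {ρ : ℝ} (hρ : 0 < ρ) {I : ℝ → ℝ} {J R : ℝ} {U : Ultrafilter ℕ}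
    {h : ℕ → E 3 → ℝ} {V : Measure (E 3 × E 3)} (hImono : MonotoneOn I (Ici 0))
    (hIcont : ContinuousOn I (Ici 0)) (hR : 0 < R)
    (hId : HasStrictDerivAt I (H0 3 k R) (VR 3 k R)) (hm : MinSeq G o ρ I J (VR 3 k R) U h)
    (hV : IsLim G o ρ U h V) (hne : 0 < V.real univ) :
    4 * Real.pi ≤ (H0 3 k R ^ 2 / 4 - k ^ 2) * V.real univ := by
  have := hV.fin
  have hVR : 0 < VR 3 k R := by
    have h1 := (VR_strictMonoOn (n := 3) (k := k) (by omega) hk) (mem_Ici.2 le_rfl)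
      (mem_Ici.2 hR.le) hR
    rwa [VR_zero] at h1
  have hae : ∀ᵐ z ∂V, ‖G.lg o z.1‖ ≤ ρ ∧ ‖z.2‖ = 1 := by
    have h1 : ∀ᵐ z ∂V, z ∈ KS G o ρ := by
      rw [ae_iff]
      exact hV.supp
    filter_upwards [h1] with z hz
    exact ⟨hz.1, by simpa using hz.2⟩
  have hVne : V ≠ 0 := by
    rintro rfl
    simp at hne
  have hst := stat_FG G (by omega) hk hG hk hR hImono hVR hId hm hV
  have hde := dens_FG G hdf (by omega) hk hρ hImono hIcont hR hId hm hV
  have h3 : (((3 : ℕ) : ℝ) - 1) = 2 := by norm_num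
  rw [h3] at hde
  refine End.Dim3.main2 (A := G.A) (F := FG G k) (K := {x | ‖G.lg o x‖ ≤ ρ}) (by positivity)
    G.A_smooth.continuous (fun c => End.FG_smooth_right G k c) (End.FG_nonneg G k)
    (End.FG_self G k) (End.norm_D_FG G k) (G.isCompact_gball o ρ) hae hVne ?_ hde
  intro c hc ψ hψ hψ0
  have h4 := hst c hc ψ hψ hψ0
  unfold dF at h4
  rw [h3] at h4
  exact h4

/-- The functional inequality in dimension three. -/
theorem funcIso_three (hdf : DensFieldStmt 3) (hk : 0 ≤ k) : FuncIso 3 k := by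
  intro G hG h hh hcs h01 R hR hV
  obtain ⟨I, hImono, hIcont, hI0, hIz, hIR, hId⟩ := exists_profile (n := 3) (k := k) (by omega) hk
  by_contra hlt
  rw [not_le] at hlt
  obtain ⟨L, hL⟩ := exists_lg_bound G hcs 0
  have hcls : G.Cls 0 (max L 1) h := by
    refine ⟨hh, fun x => (h01 x).1, fun x => (h01 x).2, fun x hx => ?_⟩
    exact (hL x (subset_tsupport h hx)).trans (le_max_left _ _)
  have hρ₀ : 0 < max L 1 := lt_of_lt_of_le one_pos (le_max_right _ _)
  have hVR0 : 0 ≤ VR 3 k R := modelH_VR_nonneg (by omega) hk hR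
  have hneg : G.per h - I (V1 G h) < 0 := by
    have h1 : I (VR 3 k R) ≤ I (V1 G h) := hImono hVR0 (hVR0.trans hV) hV
    rw [hIR R hR] at h1
    linarith
  have hU : ((Ultrafilter.of atTop : Ultrafilter ℕ) : Filter ℕ) ≤ atTop := Ultrafilter.of_le atTop
  obtain ⟨J, Rs, hRs, hVRs, g, V, hm, hVl, hVp, hVlt⟩ := exists_lim_of_neg G (by omega) hk hImono
    hIcont hI0 hIz hIR 0 (max L 1) hcls hneg hU
  have h5 := three_main G hG hdf hk hρ₀ hImono hIcont hRs (hId Rs hRs) hm hVl hVp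
  have hsg : 4 * Real.pi = sig 3 := by
    rw [← End.Dim3.sg_two, ← sg_eq_sig (n := 3) (by omega)]
    norm_num
  refine absurd (AR_le_of_main (n := 3) (by omega) hk hRs hVp.le hsg ?_) (not_le.2 hVlt)
  have h6 : 2 / (((3 : ℕ) : ℝ) - 1) = 1 := by norm_num
  have h7 : (((3 : ℕ) : ℝ) - 1) ^ 2 = 4 := by norm_num
  rw [h6, h7, Real.rpow_one, Real.rpow_one]
  exact h5

end Vale.Agent.P219.SA
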