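import Vale.Agent.P219.End.Basic

/-!
# P219 / SR : the equality case on the limit object

If constants are extremal for the sharp Sobolev inequality on the limit object, then the measure
sits on one geodesic sphere.
-/

open MeasureTheory Set Metric Filter Topology
open scoped ENNReal ContDiff

namespace Vale.Agent.P219.SR

open Vale.Agent.P219.End

/-- second order lower bound for a power -/
theorem rpow_lower {p x : ℝ} (hp : 1 ≤ p) (hx : |x| ≤ 1 / (4 * p)) :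
    1 + p * x + p * (p - 1) / 2 * x ^ 2 - (2 * p + 3 * p ^ 2 + 8 * p ^ 3) * |x| ^ 3
      ≤ (1 + x) ^ p := by
  have hp0 : 0 < p := by linarith
  have hx4 : |x| ≤ 1 / 4 := hx.trans (by
    rw [div_le_div_iff₀ (by positivity) (by norm_num)]; linarith)
  have hx0 := abs_nonneg x
  obtain ⟨hxl, hxu⟩ := abs_le.1 hx4
  have h1x : 0 < 1 + x := by linarith
  -- logarithm
  have hlog := Real.abs_log_sub_add_sum_range_le (x := -x) (by rw [abs_neg]; linarith) 2
  rw [abs_neg] at hlog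
  simp only [Finset.sum_range_succ, Finset.sum_range_zero] at hlog
  norm_num at hlog
  have hden : |x| ^ 3 / (1 - |x|) ≤ 2 * |x| ^ 3 := by
    rw [div_le_iff₀ (by linarith)]
    have : 0 ≤ |x| ^ 3 := by positivity
    nlinarith
  have hlog' : |Real.log (1 + x) - (x - x ^ 2 / 2)| ≤ 2 * |x| ^ 3 := by
    refine le_trans (le_of_eq ?_) (hlog.trans hden)
    congr 1
    ring
  obtain ⟨hl1, hl2⟩ := abs_le.1 hlog'
  set l := Real.log (1 + x) with hl
  have hsq : x ^ 2 = |x| ^ 2 := (sq_abs x).symm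
  have hc3 : |x| ^ 3 = |x| * |x| ^ 2 := by ring
  have hdx : |l - x| ≤ 3 / 2 * |x| ^ 2 := by
    rw [abs_le]
    constructor <;> nlinarith [sq_nonneg |x|]
  have hl2x : |l| ≤ 2 * |x| := by
    have : |l| ≤ |l - x| + |x| := by
      have := abs_add_le (l - x) x
      simpa using this
    nlinarith [sq_nonneg |x|]
  have hy1 : |p * l| ≤ 1 := by
    rw [abs_mul, abs_of_pos hp0]
    have : p * (2 * |x|) ≤ 1 / 2 := by
      rw [le_div_iff₀ (by positivity)] at hx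
      linarith
    nlinarith
  have hexp := Real.exp_bound hy1 (n := 3) (by norm_num)
  simp only [Finset.sum_range_succ, Finset.sum_range_zero] at hexp
  norm_num [Nat.factorial] at hexp
  have hpl : |p * l| ≤ 2 * p * |x| := by
    rw [abs_mul, abs_of_pos hp0]
    nlinarith
  have hpl3 : |p * l| ^ 3 ≤ 8 * p ^ 3 * |x| ^ 3 := by
    calc |p * l| ^ 3 ≤ (2 * p * |x|) ^ 3 := pow_le_pow_left₀ (abs_nonneg _) hpl 3
      _ = 8 * p ^ 3 * |x| ^ 3 := by ring
  have hpow : (1 + x) ^ p = Real.exp (p * l) := by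
    rw [Real.rpow_def_of_pos h1x, mul_comm]
  have hsq2 : x ^ 2 - 9 / 2 * |x| ^ 3 ≤ l ^ 2 := by
    have e : l ^ 2 - x ^ 2 = (l - x) * (l + x) := by ring
    have h3 : |l + x| ≤ 3 * |x| := (abs_add_le l x).trans (by linarith)
    have h4 : |(l - x) * (l + x)| ≤ 3 / 2 * |x| ^ 2 * (3 * |x|) := by
      rw [abs_mul]
      exact mul_le_mul hdx h3 (abs_nonneg _) (by positivity)
    have h5 := neg_abs_le ((l - x) * (l + x))
    nlinarith
  have hc0 : 0 ≤ |x| ^ 3 := by positivity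
  rw [hpow]
  have he := (abs_le.1 hexp).1
  rw [← abs_mul] at he
  have hA : |p * l| ^ 3 * (2 / 9) ≤ 8 * p ^ 3 * |x| ^ 3 := by
    have : 0 ≤ |p * l| ^ 3 := by positivity
    nlinarith
  have hB : p ^ 2 * (x ^ 2 - 9 / 2 * |x| ^ 3) ≤ p ^ 2 * l ^ 2 :=
    mul_le_mul_of_nonneg_left hsq2 (by positivity)
  have hC : p * (x - x ^ 2 / 2 - 2 * |x| ^ 3) ≤ p * l :=
    mul_le_mul_of_nonneg_left (by linarith) hp0.le
  have hD : 0 ≤ p ^ 2 * |x| ^ 3 := by positivity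
  nlinarith

theorem root_lower {q y : ℝ} (h0 : 0 ≤ q) (h1 : q ≤ 1) (hy : |y| ≤ 1 / 2) :
    1 + q * y - y ^ 2 ≤ (1 + y) ^ q := by
  obtain ⟨hl, hu⟩ := abs_le.1 hy
  have hp : 0 < 1 + y := by linarith
  have hb : (1 + y) ^ (1 - q) ≤ 1 + (1 - q) * y :=
    rpow_one_add_le_one_add_mul_self (by linarith) (by linarith) (by linarith)
  have hb0 : 0 < 1 + (1 - q) * y := by nlinarith
  have he : (1 + y) ^ q * (1 + y) ^ (1 - q) = 1 + y := by
    rw [← Real.rpow_add hp]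
    simp
  have hq0 : 0 ≤ (1 + y) ^ q := Real.rpow_nonneg hp.le _
  have h2 : 1 + y ≤ (1 + y) ^ q * (1 + (1 - q) * y) :=
    he.symm.le.trans (mul_le_mul_of_nonneg_left hb hq0)
  have h3 : (1 + q * y - y ^ 2) * (1 + (1 - q) * y) ≤ 1 + y := by
    have e : 1 + y - (1 + q * y - y ^ 2) * (1 + (1 - q) * y) =
        y ^ 2 * (1 - q * (1 - q) + (1 - q) * y) := by ring
    have h4 : 0 ≤ 1 - q * (1 - q) + (1 - q) * y := by nlinarith
    nlinarith [mul_nonneg (sq_nonneg y) h4]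
  nlinarith

variable {n : ℕ} (L : Lim n)

theorem mass_pos : 0 < L.V.real univ := by
  rw [Measure.real, ENNReal.toReal_pos_iff]
  exact ⟨by simpa [pos_iff_ne_zero] using L.V_ne, measure_lt_top _ _⟩

theorem ps_eq : L.ps = 2 + 4 / (L.m - 2) := by
  have h2 := L.m_sub_pos
  unfold Lim.ps
  field_simp
  ring

theorem two_div_ps : 2 / L.ps = (L.m - 2) / L.m := by
  have h2 := L.m_sub_pos
  have hm := L.m_pos
  unfold Lim.ps
  field_simp

theorem two_lt_ps : 2 < L.ps := by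
  rw [ps_eq]
  have := L.m_sub_pos
  have : 0 < 4 / (L.m - 2) := by positivity
  linarith

/-- integral of a continuous function of the base point -/
theorem int_cont {f : E n → ℝ} (hf : Continuous f) : Integrable (fun z => f z.1) L.V :=
  L.integrable_of_cont (hf.comp continuous_fst)

/-- the energy of `1 + t θ` -/
theorem En_one_add {θ : E n → ℝ} (hθ : ContDiff ℝ ∞ θ) (h0 : ∫ z, θ z.1 ∂L.V = 0) (t : ℝ) :
    L.En (fun x => 1 + t * θ x) = t ^ 2 * (4 / (L.m * (L.m - 2)) * ∫ z, L.G θ θ z ∂L.V) +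
      (L.H0 ^ 2 / L.m ^ 2 - L.k2) * (L.V.real univ + t ^ 2 * ∫ z, θ z.1 ^ 2 ∂L.V) := by
  have hc := hθ.continuous
  have hd : ∀ x, DifferentiableAt ℝ θ x := hθ.differentiable (by simp)
  have e1 : ∫ z, L.G (fun x => 1 + t * θ x) (fun x => 1 + t * θ x) z ∂L.V =
      t ^ 2 * ∫ z, L.G θ θ z ∂L.V := by
    rw [← integral_const_mul]
    refine integral_congr_ae (Eventually.of_forall fun z => ?_)
    have hD : D L.A (fun x => 1 + t * θ x) z.1 = t • D L.A θ z.1 := by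
      rw [D_add (differentiableAt_const _) ((hd _).const_mul t), D_const, zero_add,
        D_const_mul t (hd _)]
    show gv _ _ _ = t ^ 2 * gv _ _ _
    rw [hD, gv_smul_left, gv_smul_right]
    ring
  have e2 : ∫ z, (1 + t * θ z.1) ^ 2 ∂L.V = L.V.real univ + t ^ 2 * ∫ z, θ z.1 ^ 2 ∂L.V := by
    have i1 : Integrable (fun z : E n × E n => t * θ z.1) L.V := (int_cont L hc).const_mul t
    have i2 : Integrable (fun z : E n × E n => t ^ 2 * θ z.1 ^ 2) L.V :=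
      (int_cont L (hc.pow 2)).const_mul _
    have i0 : Integrable (fun _ : E n × E n => (1 : ℝ)) L.V := integrable_const _
    have : ∀ z : E n × E n, (1 + t * θ z.1) ^ 2 = 1 + 2 * (t * θ z.1) + t ^ 2 * θ z.1 ^ 2 :=
      fun z => by ring
    simp only [this]
    have i01 : Integrable (fun z : E n × E n => 1 + 2 * (t * θ z.1)) L.V :=
      i0.add (i1.const_mul 2)
    rw [integral_add i01 i2, integral_add i0 (i1.const_mul 2),
      integral_const_mul, integral_const_mul, integral_const_mul, h0]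
    simp
  unfold Lim.En
  rw [e1, e2]
  ring

/-- the integral of a power of `1 + t θ` -/
theorem pow_one_add {θ : E n → ℝ} (hθ : ContDiff ℝ ∞ θ) (h0 : ∫ z, θ z.1 ∂L.V = 0)
    (h1 : ∀ x, |θ x| ≤ 1) {p : ℝ} (hp : 1 ≤ p) {t : ℝ} (ht : 0 ≤ t) (ht' : t ≤ 1 / (4 * p)) :
    L.V.real univ + p * (p - 1) / 2 * t ^ 2 * ∫ z, θ z.1 ^ 2 ∂L.V -
      (2 * p + 3 * p ^ 2 + 8 * p ^ 3) * t ^ 3 * L.V.real univ ≤
      ∫ z, (1 + t * θ z.1) ^ p ∂L.V := by
  have hc := hθ.continuous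
  have hp0 : 0 < p := by linarith
  have ht4 : t ≤ 1 / 4 := ht'.trans (by
    rw [div_le_div_iff₀ (by positivity) (by norm_num)]; linarith)
  have hpos : ∀ x, 0 < 1 + t * θ x := by
    intro x
    have := (abs_le.1 (h1 x)).1
    nlinarith
  have i0 : Integrable (fun _ : E n × E n => (1 : ℝ)) L.V := integrable_const _
  have i1 : Integrable (fun z : E n × E n => p * t * θ z.1) L.V := (int_cont L hc).const_mul _
  have i2 : Integrable (fun z : E n × E n => p * (p - 1) / 2 * t ^ 2 * θ z.1 ^ 2) L.V :=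
    (int_cont L (hc.pow 2)).const_mul _
  have i3 : Integrable (fun _ : E n × E n => (2 * p + 3 * p ^ 2 + 8 * p ^ 3) * t ^ 3) L.V :=
    integrable_const _
  have hR : Continuous fun x => (1 + t * θ x) ^ p :=
    (continuous_const.add (continuous_const.mul hc)).rpow_const
      (fun x => Or.inl (hpos x).ne')
  have key : ∫ z, (1 + p * t * θ z.1 + p * (p - 1) / 2 * t ^ 2 * θ z.1 ^ 2 -
      (2 * p + 3 * p ^ 2 + 8 * p ^ 3) * t ^ 3) ∂L.V ≤ ∫ z, (1 + t * θ z.1) ^ p ∂L.V := by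
    refine integral_mono (((i0.add i1).add i2).sub i3) (int_cont L hR) fun z => ?_
    have hx : |t * θ z.1| ≤ t := by
      rw [abs_mul, abs_of_nonneg ht]
      exact mul_le_of_le_one_right ht (h1 _)
    have h := rpow_lower hp (hx.trans ht')
    have h3 : |t * θ z.1| ^ 3 ≤ t ^ 3 := pow_le_pow_left₀ (abs_nonneg _) hx 3
    have h4 : (2 * p + 3 * p ^ 2 + 8 * p ^ 3) * |t * θ z.1| ^ 3 ≤
        (2 * p + 3 * p ^ 2 + 8 * p ^ 3) * t ^ 3 := mul_le_mul_of_nonneg_left h3 (by positivity)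
    show 1 + p * t * θ z.1 + p * (p - 1) / 2 * t ^ 2 * θ z.1 ^ 2 -
      (2 * p + 3 * p ^ 2 + 8 * p ^ 3) * t ^ 3 ≤ (1 + t * θ z.1) ^ p
    calc _ = 1 + p * (t * θ z.1) + p * (p - 1) / 2 * (t * θ z.1) ^ 2 -
          (2 * p + 3 * p ^ 2 + 8 * p ^ 3) * t ^ 3 := by ring
      _ ≤ _ := by linarith
  have i01 : Integrable (fun z : E n × E n => 1 + p * t * θ z.1) L.V := i0.add i1
  have i012 : Integrable (fun z : E n × E n => 1 + p * t * θ z.1 +
    p * (p - 1) / 2 * t ^ 2 * θ z.1 ^ 2) L.V := i01.add i2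
  rw [integral_sub i012 i3, integral_add i01 i2, integral_add i0 i1,
    integral_const_mul, integral_const_mul, h0] at key
  simp only [integral_const, smul_eq_mul, mul_one, mul_zero, add_zero] at key
  linarith

/-- constants of the expansion -/
noncomputable def cC (p : ℝ) : ℝ := 2 * p + 3 * p ^ 2 + 8 * p ^ 3

/-- constants of the expansion -/
noncomputable def cB (p : ℝ) : ℝ := p * (p - 1) / 2 + cC p

theorem cC_pos {p : ℝ} (hp : 0 < p) : 0 < cC p := by unfold cC; positivity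

theorem cB_pos {p : ℝ} (hp : 2 < p) : 0 < cB p := by
  have := cC_pos (p := p) (by linarith)
  have h : 0 < p * (p - 1) := mul_pos (by linarith) (by linarith)
  unfold cB
  linarith

/-- the size of `y` -/
theorem y_small {p t r : ℝ} (hp : 2 < p) (ht : 0 < t) (ht1 : t ≤ 1) (h0 : 0 ≤ r) (h1 : r ≤ 1) :
    |p * (p - 1) / 2 * t ^ 2 * r - cC p * t ^ 3| ≤ cB p * t ^ 2 := by
  have hC0 := cC_pos (p := p) (by linarith)
  have hpp : 0 ≤ p * (p - 1) / 2 := by
    have : 0 < p * (p - 1) := mul_pos (by linarith) (by linarith)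
    linarith
  have ht2 : t ^ 3 ≤ t ^ 2 := pow_le_pow_of_le_one ht.le ht1 (by norm_num)
  have q1 : 0 ≤ p * (p - 1) / 2 * t ^ 2 * r := by positivity
  have q2 : p * (p - 1) / 2 * t ^ 2 * r ≤ p * (p - 1) / 2 * t ^ 2 :=
    mul_le_of_le_one_right (by positivity) h1
  have q3 : cC p * t ^ 3 ≤ cC p * t ^ 2 := mul_le_mul_of_nonneg_left ht2 hC0.le
  have q4 : 0 ≤ cC p * t ^ 3 := by positivity
  have q5 : cB p * t ^ 2 = p * (p - 1) / 2 * t ^ 2 + cC p * t ^ 2 := by unfold cB; ring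
  have q6 : 0 ≤ p * (p - 1) / 2 * t ^ 2 := by positivity
  rw [abs_le, q5]
  constructor <;> linarith

theorem scalar_step {κ M S a g p t Y : ℝ} (hk : 0 ≤ κ) (hM : 0 < M) (ha0 : 0 ≤ a) (haM : a ≤ M)
    (hp : 2 < p) (hSM : κ * M ≤ S * M ^ (2 / p)) (ht : 0 < t) (ht1 : t ≤ 1)
    (hBt : cB p * t ≤ 1 / 2)
    (hY : M + p * (p - 1) / 2 * t ^ 2 * a - cC p * t ^ 3 * M ≤ Y)
    (hw : S * Y ^ (2 / p) ≤ t ^ 2 * g + κ * (M + t ^ 2 * a)) :
    κ * ((p - 2) * a) ≤ g + t * (κ * M * (2 / p * cC p + cB p ^ 2)) := by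
  have hp0 : 0 < p := by linarith
  have hC0 := cC_pos hp0
  have hB0 := cB_pos hp
  set C := cC p with hC
  set B := cB p with hB
  have haM' : a / M ≤ 1 := (div_le_one hM).2 haM
  have haM0 : 0 ≤ a / M := div_nonneg ha0 hM.le
  obtain ⟨y, hy⟩ : ∃ y, y = p * (p - 1) / 2 * t ^ 2 * (a / M) - C * t ^ 3 := ⟨_, rfl⟩
  have hyB : |y| ≤ B * t ^ 2 := by rw [hy]; exact y_small hp ht ht1 haM0 haM'
  have hy12 : |y| ≤ 1 / 2 := by
    refine hyB.trans ?_
    have : B * t ^ 2 ≤ B * t := by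
      have : t ^ 2 ≤ t := by nlinarith
      exact mul_le_mul_of_nonneg_left this hB0.le
    linarith
  have hMy : M * (1 + y) ≤ Y := by
    refine le_trans (le_of_eq ?_) hY
    rw [hy]
    field_simp
    ring
  have hyv : M * (2 / p * y) = (p - 1) * t ^ 2 * a - 2 / p * C * t ^ 3 * M := by
    rw [hy]
    field_simp
  clear_value C B
  clear hy
  have hS0 : 0 ≤ S := by
    by_contra hneg
    push Not at hneg
    have h1 : S * M ^ (2 / p) < 0 := mul_neg_of_neg_of_pos hneg (Real.rpow_pos_of_pos hM _)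
    have h2 : 0 ≤ κ * M := mul_nonneg hk hM.le
    linarith
  obtain ⟨q1, q2⟩ := abs_le.1 hy12
  have hy0 : 0 ≤ 1 + y := by linarith
  have h2p : 2 / p ≤ 1 := (div_le_one hp0).2 hp.le
  have h2p0 : 0 < 2 / p := by positivity
  have hr : M ^ (2 / p) * (1 + 2 / p * y - y ^ 2) ≤ Y ^ (2 / p) := by
    have q1 : (M * (1 + y)) ^ (2 / p) ≤ Y ^ (2 / p) :=
      Real.rpow_le_rpow (mul_nonneg hM.le hy0) hMy h2p0.le
    rw [Real.mul_rpow hM.le hy0] at q1
    refine le_trans ?_ q1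
    refine mul_le_mul_of_nonneg_left ?_ (Real.rpow_nonneg hM.le _)
    exact root_lower h2p0.le h2p hy12
  generalize Y ^ (2 / p) = Z at hr hw
  generalize M ^ (2 / p) = N at hr hSM
  generalize 2 / p = r at *
  have hpos2 : 0 ≤ 1 + r * y - y ^ 2 := by nlinarith
  have hfin : κ * M * (1 + r * y - y ^ 2) ≤ t ^ 2 * g + κ * (M + t ^ 2 * a) := by
    calc κ * M * (1 + r * y - y ^ 2) ≤ S * N * (1 + r * y - y ^ 2) :=
          mul_le_mul_of_nonneg_right hSM hpos2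
      _ = S * (N * (1 + r * y - y ^ 2)) := by ring
      _ ≤ S * Z := mul_le_mul_of_nonneg_left hr hS0
      _ ≤ _ := hw
  have hy2 : y ^ 2 ≤ B ^ 2 * t ^ 3 := by
    have q1 : y ^ 2 ≤ (B * t ^ 2) ^ 2 := by
      rw [← sq_abs y]
      exact pow_le_pow_left₀ (abs_nonneg _) hyB 2
    have q2 : (B * t ^ 2) ^ 2 = B ^ 2 * t ^ 4 := by ring
    have q3 : t ^ 4 ≤ t ^ 3 := pow_le_pow_of_le_one ht.le ht1 (by norm_num)
    have q4 : B ^ 2 * t ^ 4 ≤ B ^ 2 * t ^ 3 := mul_le_mul_of_nonneg_left q3 (sq_nonneg _)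
    linarith
  have hk2 : κ * (M * y ^ 2) ≤ κ * (M * (B ^ 2 * t ^ 3)) :=
    mul_le_mul_of_nonneg_left (mul_le_mul_of_nonneg_left hy2 hM.le) hk
  have hk3 : κ * (M * (r * y)) = κ * ((p - 1) * t ^ 2 * a - r * C * t ^ 3 * M) := by
    rw [hyv]
  have h5 : t ^ 2 * (κ * ((p - 2) * a)) ≤
      t ^ 2 * (g + t * (κ * M * (r * C + B ^ 2))) := by
    have e1 : t ^ 2 * (κ * ((p - 2) * a)) =
      κ * ((p - 1) * t ^ 2 * a - r * C * t ^ 3 * M) - κ * (t ^ 2 * a) + κ * (r * C * t ^ 3 * M) := by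
      ring
    have e2 : t ^ 2 * (g + t * (κ * M * (r * C + B ^ 2))) =
      t ^ 2 * g + κ * (r * C * t ^ 3 * M) + κ * (M * (B ^ 2 * t ^ 3)) := by ring
    have e3 : κ * M * (1 + r * y - y ^ 2) = κ * M + κ * (M * (r * y)) - κ * (M * y ^ 2) := by ring
    rw [e1, e2, ← hk3]
    rw [e3] at hfin
    linarith
  exact le_of_mul_le_mul_left h5 (by positivity)

/-- The second variation at the constant function. -/
theorem second_var
    (hW : ∀ u : E n → ℝ, ContDiff ℝ ∞ u → (∀ x, 0 < u x) →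
      sg L.m ^ (2 / L.m) * (∫ z, u z.1 ^ L.ps ∂L.V) ^ (2 / L.ps) ≤ L.En u)
    (heq : (L.H0 ^ 2 / L.m ^ 2 - L.k2) * L.V.real univ ^ (2 / L.m) ≤ sg L.m ^ (2 / L.m))
    (hk : 0 ≤ L.H0 ^ 2 / L.m ^ 2 - L.k2)
    {θ : E n → ℝ} (hθ : ContDiff ℝ ∞ θ) (h0 : ∫ z, θ z.1 ∂L.V = 0) (h1 : ∀ x, |θ x| ≤ 1) :
    (L.H0 ^ 2 / L.m ^ 2 - L.k2) * ((L.ps - 2) * ∫ z, θ z.1 ^ 2 ∂L.V) ≤
      4 / (L.m * (L.m - 2)) * ∫ z, L.G θ θ z ∂L.V := by
  have hm := L.m_pos
  have hp2 := two_lt_ps L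
  have hM := mass_pos L
  have h2m := two_div_ps L
  have hEn := En_one_add L hθ h0
  have hpw := fun (t : ℝ) (ht : 0 ≤ t) (ht' : t ≤ 1 / (4 * L.ps)) =>
    pow_one_add L hθ h0 h1 (p := L.ps) (by linarith) ht ht'
  generalize L.ps = p at *
  have hp0 : 0 < p := by linarith
  have ha0 : 0 ≤ ∫ z, θ z.1 ^ 2 ∂L.V := integral_nonneg fun z => sq_nonneg _
  have haM : ∫ z, θ z.1 ^ 2 ∂L.V ≤ L.V.real univ := by
    have : ∫ z, θ z.1 ^ 2 ∂L.V ≤ ∫ _z, (1 : ℝ) ∂L.V := by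
      refine integral_mono (int_cont L (hθ.continuous.pow 2)) (integrable_const _) fun z => ?_
      show θ z.1 ^ 2 ≤ 1
      rw [← sq_abs]
      have := h1 z.1
      have h0 := abs_nonneg (θ z.1)
      nlinarith
    simpa using this
  -- the lower bound of the right constant
  have hSM : (L.H0 ^ 2 / L.m ^ 2 - L.k2) * L.V.real univ ≤
      sg L.m ^ (2 / L.m) * L.V.real univ ^ (2 / p) := by
    have e : L.V.real univ ^ (2 / L.m) * L.V.real univ ^ (2 / p) = L.V.real univ := by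
      rw [← Real.rpow_add hM, h2m]
      have : 2 / L.m + (L.m - 2) / L.m = 1 := by field_simp; ring
      rw [this, Real.rpow_one]
    calc (L.H0 ^ 2 / L.m ^ 2 - L.k2) * L.V.real univ =
        (L.H0 ^ 2 / L.m ^ 2 - L.k2) * L.V.real univ ^ (2 / L.m) * L.V.real univ ^ (2 / p) := by
          rw [mul_assoc, e]
      _ ≤ _ := mul_le_mul_of_nonneg_right heq (Real.rpow_nonneg hM.le _)
  have hB0 := cB_pos hp2
  have htend : Tendsto (fun t : ℝ => 4 / (L.m * (L.m - 2)) * ∫ z, L.G θ θ z ∂L.V +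
      t * ((L.H0 ^ 2 / L.m ^ 2 - L.k2) * L.V.real univ * (2 / p * cC p + cB p ^ 2)))
      (𝓝[>] 0) (𝓝 (4 / (L.m * (L.m - 2)) * ∫ z, L.G θ θ z ∂L.V)) := by
    have : Tendsto (fun t : ℝ => 4 / (L.m * (L.m - 2)) * ∫ z, L.G θ θ z ∂L.V +
      t * ((L.H0 ^ 2 / L.m ^ 2 - L.k2) * L.V.real univ * (2 / p * cC p + cB p ^ 2)))
      (𝓝 0) (𝓝 (4 / (L.m * (L.m - 2)) * ∫ z, L.G θ θ z ∂L.V +
      0 * ((L.H0 ^ 2 / L.m ^ 2 - L.k2) * L.V.real univ * (2 / p * cC p + cB p ^ 2)))) :=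
      tendsto_const_nhds.add (tendsto_id.mul_const _)
    rw [zero_mul, add_zero] at this
    exact this.mono_left nhdsWithin_le_nhds
  refine ge_of_tendsto htend ?_
  have hlt : (0 : ℝ) < min (1 / (4 * p)) (1 / (2 * cB p)) :=
    lt_min (by positivity) (by positivity)
  filter_upwards [Ioo_mem_nhdsGT hlt] with t ht
  have ht0 : 0 < t := ht.1
  have ht' : t ≤ 1 / (4 * p) := ht.2.le.trans (min_le_left _ _)
  have q2 : 1 / (4 * p) ≤ 1 / 4 := by
    rw [div_le_div_iff₀ (by positivity) (by norm_num)]; linarith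
  have hBt : cB p * t ≤ 1 / 2 := by
    have := ht.2.le.trans (min_le_right _ _)
    rw [le_div_iff₀ (by positivity)] at this
    linarith
  have hpos : ∀ x, 0 < 1 + t * θ x := by
    intro x
    have q1 := (abs_le.1 (h1 x)).1
    nlinarith
  have hsm : ContDiff ℝ ∞ fun x => 1 + t * θ x := contDiff_const.add (contDiff_const.mul hθ)
  have hw := hW _ hsm hpos
  rw [hEn t] at hw
  exact scalar_step hk hM ha0 haM hp2 hSM ht0 (by linarith) hBt (hpw t ht0.le ht') hw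

/-- Extremal constants: `(H₀² / m² - k2) μ ≤ ∫ w²` for the frame of the barycentre. -/
theorem exists_frame
    (hW : ∀ u : E n → ℝ, ContDiff ℝ ∞ u → (∀ x, 0 < u x) →
      sg L.m ^ (2 / L.m) * (∫ z, u z.1 ^ L.ps ∂L.V) ^ (2 / L.ps) ≤ L.En u)
    (heq : (L.H0 ^ 2 / L.m ^ 2 - L.k2) * L.V.real univ ^ (2 / L.m) ≤ sg L.m ^ (2 / L.m))
    (hk : 0 ≤ L.H0 ^ 2 / L.m ^ 2 - L.k2) :
    ∃ c ∈ L.K, ∃ ε : ℝ, 0 < ε ∧ L.k2 * ε < 2 ∧
      (L.H0 ^ 2 / L.m ^ 2 - L.k2) * L.V.real univ ≤ ∫ z, L.w c ε z.1 ^ 2 ∂L.V := by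
  obtain ⟨c, hc, ε, hε, hkε, θ, hθ, hs, hg, hi⟩ := L.bary (fun _ => 1) contDiff_const
    (fun _ => one_pos)
  refine ⟨c, hc, ε, hε, hkε, ?_⟩
  have hm := L.m_pos
  have hm2 := L.m_sub_pos
  have h1 : ∀ i x, |θ i x| ≤ 1 := by
    intro i x
    have : θ i x ^ 2 ≤ 1 := by
      rw [← hs x]
      exact Finset.single_le_sum (f := fun i => θ i x ^ 2) (fun j _ => sq_nonneg _)
        (Finset.mem_univ i)
    exact abs_le_one_iff_mul_self_le_one.2 (by nlinarith)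
  have hsum := Finset.sum_le_sum fun (i : Fin (n + 1)) (_ : i ∈ Finset.univ) =>
    second_var L hW heq hk (hθ i) (by simpa using hi i) (h1 i)
  have hθ1 : ∀ i, ContDiff ℝ 1 (θ i) := fun i => (hθ i).of_le (by exact_mod_cast le_top)
  have hGi : ∀ i ∈ Finset.univ, Integrable (fun z => L.G (θ i) (θ i) z) L.V :=
    fun i _ => L.integrable_of_cont (L.G_cont (hθ1 i) (hθ1 i))
  have s1 : ∑ i, ∫ z, θ i z.1 ^ 2 ∂L.V = ∫ z, ∑ i, θ i z.1 ^ 2 ∂L.V :=
    (integral_finsetSum _ fun i _ => int_cont L ((hθ i).continuous.pow 2)).symm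
  have s2 : ∑ i, ∫ z, L.G (θ i) (θ i) z ∂L.V = ∫ z, ∑ i, L.G (θ i) (θ i) z ∂L.V :=
    (integral_finsetSum _ hGi).symm
  rw [← Finset.mul_sum, ← Finset.mul_sum, ← Finset.mul_sum, s1, s2] at hsum
  simp only [hs, integral_const, smul_eq_mul, mul_one] at hsum
  have hwc : Continuous fun x => L.w c ε x := by
    unfold Lim.w bub
    refine continuous_const.div ((L.Fc_cont c).add continuous_const) fun x => ?_
    have := L.F_nonneg c x
    positivity
  have hint : ∫ z, ∑ i, L.G (θ i) (θ i) z ∂L.V ≤ ∫ z, L.m * L.w c ε z.1 ^ 2 ∂L.V := by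
    refine integral_mono_ae ?_ ((int_cont L (hwc.pow 2)).const_mul _) ?_
    · exact integrable_finsetSum _ hGi
    · filter_upwards [hg] with z hz
      exact hz
  rw [integral_const_mul] at hint
  have h3 : 4 / (L.m * (L.m - 2)) * ∫ z, ∑ i, L.G (θ i) (θ i) z ∂L.V ≤
      4 / (L.m * (L.m - 2)) * (L.m * ∫ z, L.w c ε z.1 ^ 2 ∂L.V) :=
    mul_le_mul_of_nonneg_left hint (by positivity)
  have e1 : L.ps - 2 = 4 / (L.m - 2) := by rw [ps_eq]; ring
  have e2 : 4 / (L.m * (L.m - 2)) * (L.m * ∫ z, L.w c ε z.1 ^ 2 ∂L.V) =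
      4 / (L.m - 2) * ∫ z, L.w c ε z.1 ^ 2 ∂L.V := by
    field_simp
  rw [e1] at hsum
  rw [e2] at h3
  have h4 := hsum.trans h3
  have e3 : (L.H0 ^ 2 / L.m ^ 2 - L.k2) * (4 / (L.m - 2) * L.V.real univ) =
      4 / (L.m - 2) * ((L.H0 ^ 2 / L.m ^ 2 - L.k2) * L.V.real univ) := by ring
  rw [e3] at h4
  exact le_of_mul_le_mul_left h4 (by positivity)

/-- the weight `1 / (F_c + ε)` -/
noncomputable def aw (c : E n) (ε : ℝ) (x : E n) : ℝ := (L.F c x + ε)⁻¹

theorem aw_smooth (c : E n) {ε : ℝ} (hε : 0 < ε) : ContDiff ℝ ∞ (aw L c ε) := by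
  unfold aw
  refine ((L.Fc_smooth c).add contDiff_const).inv fun x => ?_
  have := L.F_nonneg c x
  positivity

theorem aw_pos (c : E n) {ε : ℝ} (hε : 0 < ε) (x : E n) : 0 < aw L c ε x := by
  unfold aw
  have := L.F_nonneg c x
  positivity

theorem D_aw (c : E n) {ε : ℝ} (hε : 0 < ε) (x : E n) :
    D L.A (aw L c ε) x = (-(aw L c ε x) ^ 2) • D L.A (L.F c) x := by
  have hx : L.F c x + ε ≠ 0 := by
    have := L.F_nonneg c x
    positivity
  have h : HasDerivAt (fun y : ℝ => (y + ε)⁻¹) (-(L.F c x + ε)⁻¹ ^ 2) (L.F c x) := by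
    have := ((hasDerivAt_id (L.F c x)).add_const ε).inv hx
    refine this.congr_deriv ?_
    simp only [id]
    field_simp
  exact D_comp h ((L.Fc_smooth c).differentiable (by simp) x)

/-- pointwise form of the exact identity for the function one -/
theorem ident_pt (c : E n) {ε : ℝ} (hε : 0 < ε) (hkε : L.k2 * ε < 2) (z : E n × E n) :
    L.H0 ^ 2 / L.m ^ 2 - L.k2 - L.w c ε z.1 ^ 2 =
      2 / L.m * L.dl c (aw L c ε) z + ((L.H0 / L.m - aw L c ε z.1 * L.nc c z) ^ 2 +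
        (L.m - 2) / L.m * (aw L c ε z.1 ^ 2 * L.G (L.F c) (L.F c) z)) := by
  have hm := L.m_pos
  have hF := L.F_nonneg c z.1
  have hG : L.G (aw L c ε) (L.F c) z = -(aw L c ε z.1) ^ 2 * L.G (L.F c) (L.F c) z := by
    show gv _ _ _ = _ * gv _ _ _
    rw [D_aw L c hε, gv_smul_left]
  have hFF := L.G_FF c z
  have hw : L.w c ε z.1 ^ 2 = (ε * (2 - L.k2 * ε)) * aw L c ε z.1 ^ 2 := by
    unfold Lim.w bub aw
    rw [div_pow, Real.sq_sqrt (mul_nonneg hε.le (by linarith))]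
    field_simp
  have ha : aw L c ε z.1 * (L.F c z.1 + ε) = 1 := by
    unfold aw
    exact inv_mul_cancel₀ (by positivity)
  unfold Lim.dl
  rw [hG, hFF, hw]
  generalize aw L c ε z.1 = a at *
  generalize L.F c z.1 = f at *
  generalize L.nc c z = b at *
  have e : ε = ε * (a * (f + ε)) := by rw [ha, mul_one]
  have key : L.k2 + (ε * (2 - L.k2 * ε)) * a ^ 2 =
      2 * (1 + L.k2 * f) * a - a ^ 2 * (2 * f + L.k2 * f ^ 2) := by
    have h1 : a * f = 1 - a * ε := by linarith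
    have h2 : 2 * (1 + L.k2 * f) * a - a ^ 2 * (2 * f + L.k2 * f ^ 2) =
      2 * a + 2 * L.k2 * (a * f) - 2 * a * (a * f) - L.k2 * (a * f) ^ 2 := by ring
    rw [h2, h1]
    ring
  have hL : L.H0 ^ 2 / L.m ^ 2 - L.k2 - ε * (2 - L.k2 * ε) * a ^ 2 =
      L.H0 ^ 2 / L.m ^ 2 - (2 * (1 + L.k2 * f) * a - a ^ 2 * (2 * f + L.k2 * f ^ 2)) := by
    rw [← key]; ring
  rw [hL]
  field_simp
  ring

/-- **Rigidity on the limit object.** -/
theorem rigid
    (hW : ∀ u : E n → ℝ, ContDiff ℝ ∞ u → (∀ x, 0 < u x) →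
      sg L.m ^ (2 / L.m) * (∫ z, u z.1 ^ L.ps ∂L.V) ^ (2 / L.ps) ≤ L.En u)
    (heq : (L.H0 ^ 2 / L.m ^ 2 - L.k2) * L.V.real univ ^ (2 / L.m) ≤ sg L.m ^ (2 / L.m)) :
    ∃ c ∈ L.K, ∀ᵐ z ∂L.V, L.H0 * L.nc c z = L.m * (1 + L.k2 * L.F c z.1) ∧
      L.nc c z ^ 2 = 2 * L.F c z.1 + L.k2 * L.F c z.1 ^ 2 := by
  have hm := L.m_pos
  have hm2 := L.m_sub_pos
  have hM := mass_pos L
  have hsg : 0 < sg L.m := by
    unfold sg
    have h1 : 0 < Real.Gamma (L.m / 2) := Real.Gamma_pos_of_pos (by positivity)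
    have h2 : 0 < Real.Gamma L.m := Real.Gamma_pos_of_pos hm
    positivity
  have hk : 0 ≤ L.H0 ^ 2 / L.m ^ 2 - L.k2 := by
    have h1 := hW (fun _ => 1) contDiff_const (fun _ => one_pos)
    have h2 : L.En (fun _ => 1) = (L.H0 ^ 2 / L.m ^ 2 - L.k2) * L.V.real univ := by
      have e : ∀ z, L.G (fun _ => 1) (fun _ => 1) z = 0 := by
        intro z
        show gv _ _ _ = 0
        rw [D_const, gv_zero_left]
      unfold Lim.En
      simp [e]
    rw [h2] at h1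
    by_contra hneg
    push Not at hneg
    have h3 : (L.H0 ^ 2 / L.m ^ 2 - L.k2) * L.V.real univ < 0 := mul_neg_of_neg_of_pos hneg hM
    have h4 : 0 ≤ sg L.m ^ (2 / L.m) *
        (∫ z, (fun _ : E n => (1 : ℝ)) z.1 ^ L.ps ∂L.V) ^ (2 / L.ps) :=
      mul_nonneg (Real.rpow_nonneg hsg.le _) (Real.rpow_nonneg
        (integral_nonneg fun z => by simp) _)
    linarith
  obtain ⟨c, hc, ε, hε, hkε, hle⟩ := exists_frame L hW heq hk
  refine ⟨c, hc, ?_⟩
  have has := aw_smooth L c hε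
  have hap := aw_pos L c hε
  have ha1 : ContDiff ℝ 1 (aw L c ε) := has.of_le (by exact_mod_cast le_top)
  -- the second integrand
  set q : E n × E n → ℝ := fun z => (L.H0 / L.m - aw L c ε z.1 * L.nc c z) ^ 2 +
        (L.m - 2) / L.m * (aw L c ε z.1 ^ 2 * L.G (L.F c) (L.F c) z) with hq
  have hqc : Continuous q := by
    have h1 : Continuous fun z : E n × E n => aw L c ε z.1 := has.continuous.comp continuous_fst
    have h2 := L.nc_cont c
    have h3 := L.G_cont (L.Fc_smooth1 c) (L.Fc_smooth1 c)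
    rw [hq]
    fun_prop
  have hqi := L.integrable_of_cont hqc
  have hq0 : ∀ᵐ z ∂L.V, 0 ≤ q z := by
    filter_upwards [L.V_supp] with z hz
    have h3 := L.G_self_nonneg (L.F c) hz.2
    have : 0 ≤ (L.m - 2) / L.m := by positivity
    rw [hq]
    positivity
  have hwc : Continuous fun x => L.w c ε x := by
    unfold Lim.w bub
    refine continuous_const.div ((L.Fc_cont c).add continuous_const) fun x => ?_
    have := L.F_nonneg c x
    positivity
  have hid : (L.H0 ^ 2 / L.m ^ 2 - L.k2) * L.V.real univ - ∫ z, L.w c ε z.1 ^ 2 ∂L.V =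
      2 / L.m * L.Dl c (aw L c ε) + ∫ z, q z ∂L.V := by
    have i1 : Integrable (fun z : E n × E n => L.w c ε z.1 ^ 2) L.V := int_cont L (hwc.pow 2)
    rw [L.Dl_eq, ← integral_const_mul, ← integral_add ((L.dl_integrable c ha1).const_mul _) hqi]
    have e0 : (L.H0 ^ 2 / L.m ^ 2 - L.k2) * L.V.real univ =
        ∫ _z, (L.H0 ^ 2 / L.m ^ 2 - L.k2) ∂L.V := by
      simp [mul_comm]
    rw [e0, ← integral_sub (integrable_const _) i1]
    refine integral_congr_ae (Eventually.of_forall fun z => ?_)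
    exact ident_pt L c hε hkε z
  have hD0 : 0 ≤ L.Dl c (aw L c ε) := L.Dl_nonneg hc has fun x => (hap x).le
  have hQ0 : 0 ≤ ∫ z, q z ∂L.V := integral_nonneg_of_ae hq0
  have hDz : L.Dl c (aw L c ε) = 0 := by
    have : 0 ≤ 2 / L.m * L.Dl c (aw L c ε) := by positivity
    have h2 : 2 / L.m * L.Dl c (aw L c ε) = 0 := by linarith
    have h3 : 2 / L.m ≠ 0 := by positivity
    exact (mul_eq_zero.1 h2).resolve_left h3
  have hQz : ∫ z, q z ∂L.V = 0 := by
    have : 0 ≤ 2 / L.m * L.Dl c (aw L c ε) := by positivity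
    linarith
  have hqz : ∀ᵐ z ∂L.V, q z = 0 := (integral_eq_zero_iff_of_nonneg_ae hq0 hqi).1 hQz
  -- the pointwise consequences
  have hpt : ∀ᵐ z ∂L.V, L.nc c z = L.H0 / L.m * (L.F c z.1 + ε) ∧
      L.G (L.F c) (L.F c) z = 0 := by
    filter_upwards [L.V_supp, hqz] with z hz hqz
    have h3 := L.G_self_nonneg (L.F c) hz.2
    have ha := hap z.1
    have e1 : 0 ≤ (L.H0 / L.m - aw L c ε z.1 * L.nc c z) ^ 2 := sq_nonneg _
    have e2 : 0 ≤ (L.m - 2) / L.m * (aw L c ε z.1 ^ 2 * L.G (L.F c) (L.F c) z) := by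
      have : 0 ≤ (L.m - 2) / L.m := by positivity
      positivity
    have e3 : (L.H0 / L.m - aw L c ε z.1 * L.nc c z) ^ 2 +
        (L.m - 2) / L.m * (aw L c ε z.1 ^ 2 * L.G (L.F c) (L.F c) z) = 0 := hqz
    have e4 : (L.H0 / L.m - aw L c ε z.1 * L.nc c z) ^ 2 = 0 := by linarith
    have e5 : (L.m - 2) / L.m * (aw L c ε z.1 ^ 2 * L.G (L.F c) (L.F c) z) = 0 := by linarith
    constructor
    · have e6 : L.H0 / L.m = aw L c ε z.1 * L.nc c z := by
        have := pow_eq_zero_iff (two_ne_zero) |>.1 e4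
        linarith
      rw [e6]
      have hF := L.F_nonneg c z.1
      unfold aw
      field_simp
    · have h5 : (L.m - 2) / L.m ≠ 0 := by positivity
      have h6 := (mul_eq_zero.1 e5).resolve_left h5
      exact (mul_eq_zero.1 h6).resolve_left (by positivity)
  -- the function which has to vanish
  set Ψ : E n → ℝ := fun x => L.H0 * (L.H0 / L.m * (L.F c x + ε)) -
    L.m * (1 + L.k2 * L.F c x) with hΨ
  have hFs := L.Fc_smooth c
  have hΨs : ContDiff ℝ ∞ Ψ := by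
    rw [hΨ]
    exact (contDiff_const.mul (contDiff_const.mul (hFs.add contDiff_const))).sub
      (contDiff_const.mul (contDiff_const.add (contDiff_const.mul hFs)))
  -- the functional vanishes on functions dominated by `aw`
  have hvan : ∀ ψ : E n → ℝ, ContDiff ℝ ∞ ψ → (∀ x, 0 ≤ ψ x) → (∀ x, ψ x ≤ 2 * aw L c ε x) →
      ∫ z, ψ z.1 * Ψ z.1 ∂L.V = 0 := by
    intro ψ hψ h0 hle
    have hψ1 : ContDiff ℝ 1 ψ := hψ.of_le (by exact_mod_cast le_top)
    have h1 := L.Dl_nonneg hc hψ h0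
    have h2 := L.Dl_mono hc hψ (contDiff_const.mul has : ContDiff ℝ ∞ fun x => 2 * aw L c ε x) hle
    rw [L.Dl_smul c 2 ha1, hDz, mul_zero] at h2
    have h3 : L.Dl c ψ = 0 := le_antisymm h2 h1
    rw [← h3, L.Dl_eq]
    refine integral_congr_ae ?_
    filter_upwards [L.V_supp, hpt] with z hz hp
    have h4 : L.G ψ (L.F c) z = 0 := by
      have := gv_sq_le hz.2.le (D L.A ψ z.1) (D L.A (L.F c) z.1)
      have h5 : gv (D L.A (L.F c) z.1) (D L.A (L.F c) z.1) z.2 = 0 := hp.2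
      rw [h5, mul_zero] at this
      exact pow_eq_zero_iff two_ne_zero |>.1 (le_antisymm this (sq_nonneg _))
    show ψ z.1 * (L.H0 * (L.H0 / L.m * (L.F c z.1 + ε)) - L.m * (1 + L.k2 * L.F c z.1)) =
      L.H0 * ψ z.1 * L.nc c z - L.m * (1 + L.k2 * L.F c z.1) * ψ z.1 - L.G ψ (L.F c) z
    rw [h4, hp.1]
    ring
  have hden : ∀ x, 0 < 1 + Ψ x ^ 2 := fun x => by positivity
  have hs1 : ContDiff ℝ ∞ fun x => aw L c ε x * ((Ψ x + 1) ^ 2 * (1 + Ψ x ^ 2)⁻¹) :=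
    has.mul (((hΨs.add contDiff_const).pow 2).mul
      ((contDiff_const.add (hΨs.pow 2)).inv fun x => (hden x).ne'))
  have hs2 : ContDiff ℝ ∞ fun x => aw L c ε x * ((Ψ x - 1) ^ 2 * (1 + Ψ x ^ 2)⁻¹) :=
    has.mul (((hΨs.sub contDiff_const).pow 2).mul
      ((contDiff_const.add (hΨs.pow 2)).inv fun x => (hden x).ne'))
  have hb : ∀ y : ℝ, (y + 1) ^ 2 * (1 + y ^ 2)⁻¹ ≤ 2 ∧ (y - 1) ^ 2 * (1 + y ^ 2)⁻¹ ≤ 2 := by
    intro y
    have h1 : 0 < 1 + y ^ 2 := by positivity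
    constructor
    · rw [← div_eq_mul_inv, div_le_iff₀ h1]
      nlinarith [sq_nonneg (y - 1)]
    · rw [← div_eq_mul_inv, div_le_iff₀ h1]
      nlinarith [sq_nonneg (y + 1)]
  have v1 := hvan _ hs1 (fun x => by have := hap x; have := hden x; positivity) (fun x => by
    have := mul_le_mul_of_nonneg_left (hb (Ψ x)).1 (hap x).le
    linarith)
  have v2 := hvan _ hs2 (fun x => by have := hap x; have := hden x; positivity) (fun x => by
    have := mul_le_mul_of_nonneg_left (hb (Ψ x)).2 (hap x).le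
    linarith)
  have hz4 : ∫ z, 4 * (aw L c ε z.1 * (Ψ z.1 ^ 2 * (1 + Ψ z.1 ^ 2)⁻¹)) ∂L.V = 0 := by
    have i1 : Integrable (fun z : E n × E n =>
        aw L c ε z.1 * ((Ψ z.1 + 1) ^ 2 * (1 + Ψ z.1 ^ 2)⁻¹) * Ψ z.1) L.V :=
      int_cont L (hs1.continuous.mul hΨs.continuous)
    have i2 : Integrable (fun z : E n × E n =>
        aw L c ε z.1 * ((Ψ z.1 - 1) ^ 2 * (1 + Ψ z.1 ^ 2)⁻¹) * Ψ z.1) L.V :=
      int_cont L (hs2.continuous.mul hΨs.continuous)
    have := integral_sub i1 i2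
    rw [v1, v2, sub_zero] at this
    rw [← this]
    refine integral_congr_ae (Eventually.of_forall fun z => ?_)
    show 4 * (aw L c ε z.1 * (Ψ z.1 ^ 2 * (1 + Ψ z.1 ^ 2)⁻¹)) =
      aw L c ε z.1 * ((Ψ z.1 + 1) ^ 2 * (1 + Ψ z.1 ^ 2)⁻¹) * Ψ z.1 -
      aw L c ε z.1 * ((Ψ z.1 - 1) ^ 2 * (1 + Ψ z.1 ^ 2)⁻¹) * Ψ z.1
    ring
  have hcz : Continuous fun x => 4 * (aw L c ε x * (Ψ x ^ 2 * (1 + Ψ x ^ 2)⁻¹)) :=
    continuous_const.mul (has.continuous.mul ((hΨs.continuous.pow 2).mul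
      ((continuous_const.add (hΨs.continuous.pow 2)).inv₀ fun x => (hden x).ne')))
  have hz5 : ∀ᵐ z ∂L.V, 4 * (aw L c ε z.1 * (Ψ z.1 ^ 2 * (1 + Ψ z.1 ^ 2)⁻¹)) = 0 := by
    refine (integral_eq_zero_iff_of_nonneg_ae (Eventually.of_forall fun z => ?_)
      (int_cont L hcz)).1 hz4
    have := hap z.1
    have := hden z.1
    show 0 ≤ 4 * (aw L c ε z.1 * (Ψ z.1 ^ 2 * (1 + Ψ z.1 ^ 2)⁻¹))
    positivity
  filter_upwards [hpt, hz5] with z hp hz
  have hΨ0 : Ψ z.1 = 0 := by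
    have h1 := hap z.1
    have h2 := hden z.1
    by_contra hne
    have h3 : 0 < Ψ z.1 ^ 2 := by positivity
    have : 0 < 4 * (aw L c ε z.1 * (Ψ z.1 ^ 2 * (1 + Ψ z.1 ^ 2)⁻¹)) := by positivity
    linarith
  have hΨ0' : L.H0 * (L.H0 / L.m * (L.F c z.1 + ε)) - L.m * (1 + L.k2 * L.F c z.1) = 0 := hΨ0
  constructor
  · rw [hp.1]
    linarith
  · have := L.G_FF c z
    rw [hp.2] at this
    linarith

end Vale.Agent.P219.SR
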