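import Vale.Agent.P219.SR.RigSeq
import Vale.Agent.P219.End.Rigid

/-! # Dimension at least four: from the limit object to the theorem, with the equality case -/

open MeasureTheory Set Metric Filter Topology
open scoped ENNReal NNReal ContDiff

noncomputable section

namespace Vale.Agent.P219.SA

open Vale.Agent.P219.TP Vale.Agent.P219.TPH

variable {n : ℕ} {k : ℝ}

/-- The limit object attached to a minimising sequence. -/
def LimMk (n : ℕ) (k : ℝ) : Prop :=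
  ∀ G : Geo n, MonoSn G k → ∀ (o : E n) (ρ : ℝ) (I : ℝ → ℝ) (J R : ℝ) (U : Ultrafilter ℕ)
    (h : ℕ → E n → ℝ) (V : Measure (E n × E n)), 0 < ρ → 0 < R → (U : Filter ℕ) ≤ atTop →
    MonotoneOn I (Ici 0) → ContinuousOn I (Ici 0) → (∀ V, 0 ≤ V → 0 ≤ I V) → I 0 = 0 →
    (∀ R, 0 ≤ R → I (VR n k R) = AR n k R) → HasStrictDerivAt I (H0 n k R) (VR n k R) →
    MinSeq G o ρ I J (VR n k R) U h → IsLim G o ρ U h V → 0 < V.real univ →
    ∃ L : End.Lim n, L.V = V ∧ L.m = (n : ℝ) - 1 ∧ L.k2 = k ^ 2 ∧ L.H0 = H0 n k R ∧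
      ∀ c x, 2 * L.F c x + k ^ 2 * L.F c x ^ 2 = TPH.sn k ‖G.lg c x‖ ^ 2

/-- The sharp Sobolev inequality on the limit object. -/
def LimSob (n : ℕ) : Prop :=
  ∀ L : End.Lim n, ∀ u : E n → ℝ, ContDiff ℝ ∞ u → (∀ x, 0 < u x) →
    End.sg L.m ^ (2 / L.m) * (∫ z, u z.1 ^ L.ps ∂L.V) ^ (2 / L.ps) ≤ L.En u

theorem rm_H0 (hk : 0 ≤ k) (hn : 2 ≤ n) {R : ℝ} (hR : 0 < R) :
    H0 n k R ^ 2 / ((n : ℝ) - 1) ^ 2 - k ^ 2 = (TPH.sn k R ^ 2)⁻¹ := by
  have hsn : 0 < TPH.sn k R := TPH.sn_pos hk hR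
  have hn2 : (2 : ℝ) ≤ n := by exact_mod_cast hn
  have hm : 0 < (n : ℝ) - 1 := by linarith
  have e1 : TPH.cs k R ^ 2 - k ^ 2 * TPH.sn k R ^ 2 = 1 := by
    unfold TPH.cs TPH.sn
    split_ifs with hk0
    · rw [hk0]; simp
    · have := Real.cosh_sq (k * R)
      rw [div_pow]
      field_simp
      linarith
  unfold H0
  rw [eq_comm, inv_eq_iff_eq_inv, eq_comm, inv_eq_iff_eq_inv]
  field_simp
  linarith

/-- The sharp Sobolev inequality with `u = 1`. -/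
theorem rm_main (sob : LimSob n) (L : End.Lim n) :
    End.sg L.m ^ (2 / L.m) ≤
      (L.H0 ^ 2 / L.m ^ 2 - L.k2) * L.V.real univ ^ (2 / L.m) := by
  have hV := L.rg_mass_pos
  have hm := L.m_pos
  have hm2 := L.m_sub_pos
  have h1 := sob L (fun _ => 1) contDiff_const (fun _ => one_pos)
  rw [L.rg_En_one] at h1
  have h2 : ∫ z : E n × E n, (fun _ : E n => (1 : ℝ)) z.1 ^ L.ps ∂L.V = L.V.real univ := by
    simp
  rw [h2] at h1
  have h3 : 2 / L.m + 2 / L.ps = 1 := by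
    unfold End.Lim.ps
    field_simp
    ring
  have h4 : L.V.real univ = L.V.real univ ^ (2 / L.m) * L.V.real univ ^ (2 / L.ps) := by
    rw [← Real.rpow_add hV, h3, Real.rpow_one]
  have h5 : 0 < L.V.real univ ^ (2 / L.ps) := Real.rpow_pos_of_pos hV _
  have h6 : End.sg L.m ^ (2 / L.m) * L.V.real univ ^ (2 / L.ps) ≤
      (L.H0 ^ 2 / L.m ^ 2 - L.k2) * L.V.real univ ^ (2 / L.m) * L.V.real univ ^ (2 / L.ps) := by
    calc End.sg L.m ^ (2 / L.m) * L.V.real univ ^ (2 / L.ps)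
        ≤ (L.H0 ^ 2 / L.m ^ 2 - L.k2) * L.V.real univ := h1
      _ = (L.H0 ^ 2 / L.m ^ 2 - L.k2) *
          (L.V.real univ ^ (2 / L.m) * L.V.real univ ^ (2 / L.ps)) := by rw [← h4]
      _ = _ := by ring
  exact le_of_mul_le_mul_right h6 h5

/-- The functional isoperimetric inequality, `n ≥ 4`. -/
theorem funcIso_of_mk (hn : 2 ≤ n) (hk : 0 ≤ k) (hsg : End.sg ((n : ℝ) - 1) = sig n)
    (mk : LimMk n k) (sob : LimSob n) : FuncIso n k := by
  intro G hG h hh hcs h01 R hR hV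
  have hn1 : 1 ≤ n := by omega
  obtain ⟨I, hImono, hIcont, hI0, hIz, hIR, hId⟩ := exists_profile (n := n) (k := k) hn hk
  by_contra hlt
  rw [not_le] at hlt
  have hlg : Continuous fun x => ‖G.lg 0 x‖ :=
    (G.lg_smooth.continuous.comp (continuous_const.prodMk continuous_id)).norm
  obtain ⟨B, hB⟩ := (hcs.isCompact.image hlg).isBounded.subset_closedBall 0
  have hcls : G.Cls 0 (max B 1) h := by
    refine ⟨hh, fun x => (h01 x).1, fun x => (h01 x).2, fun x hx => ?_⟩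
    have h1 := hB ⟨x, subset_tsupport h hx, rfl⟩
    rw [mem_closedBall, dist_zero_right, Real.norm_eq_abs, abs_of_nonneg (norm_nonneg _)] at h1
    exact h1.trans (le_max_left _ _)
  have hρ₀ : 0 < max B 1 := lt_of_lt_of_le one_pos (le_max_right _ _)
  have hVR0 : 0 ≤ VR n k R := modelH_VR_nonneg hn1 hk hR
  have hneg : G.per h - I (V1 G h) < 0 := by
    have h1 : I (VR n k R) ≤ I (V1 G h) := hImono hVR0 (hVR0.trans hV) hV
    rw [hIR R hR] at h1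
    linarith
  have hU : ((Ultrafilter.of atTop : Ultrafilter ℕ) : Filter ℕ) ≤ atTop := Ultrafilter.of_le atTop
  obtain ⟨J, Rs, hRs, hVRs, g, V, hm, hVl, hVp, hVlt⟩ := exists_lim_of_neg G hn hk hImono hIcont hI0
    hIz hIR 0 (max B 1) hcls hneg hU
  obtain ⟨L, h1, h2, h3, h4, -⟩ := mk G hG 0 (max B 1) I J Rs _ g V hρ₀ hRs hU hImono hIcont hI0 hIz
    hIR (hId Rs hRs) hm hVl hVp
  have h5 := rm_main sob L
  rw [h1, h2, h3, h4] at h5
  exact absurd (AR_le_of_main hn hk hRs hVp.le hsg h5) (not_le.2 hVlt)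

theorem rm_sn_inj (hk : 0 ≤ k) {a b : ℝ} (ha : 0 ≤ a) (hb : 0 ≤ b) (h : TPH.sn k a ^ 2 = TPH.sn k b ^ 2) :
    a = b := by
  have h1 := modelH_sn_nonneg hk ha
  have h2 := modelH_sn_nonneg hk hb
  exact (TPH.sn_strictMono hk).injective ((pow_left_inj₀ h1 h2 two_ne_zero).1 h)

/-- The equality case on the limit, `n ≥ 4`. -/
theorem limRig_of_mk (hn : 2 ≤ n) (hk : 0 ≤ k) (hsg : End.sg ((n : ℝ) - 1) = sig n)
    (mk : LimMk n k) (sob : LimSob n) : LimRig n k := by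
  intro G hG o ρ I R U h V hρ hR hU hImono hIcont hI0 hIz hIR hId hm hVl hVp hVle
  have hn1 : 1 ≤ n := by omega
  have hn2 : (2 : ℝ) ≤ n := by exact_mod_cast hn
  have hm0 : 0 < (n : ℝ) - 1 := by linarith
  have hsn : 0 < TPH.sn k R := TPH.sn_pos hk hR
  have hsig : 0 < sig n := sig_pos hn1
  obtain ⟨L, h1, h2, h3, h4, hF⟩ := mk G hG o ρ I 0 R U h V hρ hR hU hImono hIcont hI0 hIz hIR hId hm
    hVl hVp
  have heq : (L.H0 ^ 2 / L.m ^ 2 - L.k2) * L.V.real univ ^ (2 / L.m) ≤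
      End.sg L.m ^ (2 / L.m) := by
    rw [h1, h2, h3, h4, rm_H0 hk hn hR, hsg]
    have h5 : AR n k R ^ (2 / ((n : ℝ) - 1)) = sig n ^ (2 / ((n : ℝ) - 1)) * TPH.sn k R ^ 2 := by
      unfold AR
      rw [Real.mul_rpow hsig.le (by positivity), ← Real.rpow_natCast (TPH.sn k R) (n - 1),
        ← Real.rpow_mul hsn.le, Nat.cast_sub (by omega : 1 ≤ n)]
      congr 1
      rw [Nat.cast_one, mul_div_cancel₀ _ hm0.ne', ← Real.rpow_natCast]
      norm_num
    have h6 : V.real univ ^ (2 / ((n : ℝ) - 1)) ≤ AR n k R ^ (2 / ((n : ℝ) - 1)) :=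
      Real.rpow_le_rpow hVp.le hVle (by positivity)
    rw [h5] at h6
    calc (TPH.sn k R ^ 2)⁻¹ * V.real univ ^ (2 / ((n : ℝ) - 1))
        ≤ (TPH.sn k R ^ 2)⁻¹ * (sig n ^ (2 / ((n : ℝ) - 1)) * TPH.sn k R ^ 2) :=
          mul_le_mul_of_nonneg_left h6 (by positivity)
      _ = sig n ^ (2 / ((n : ℝ) - 1)) := by field_simp
  obtain ⟨-, c, -, a, -, ha, hae⟩ := L.rigid (sob L) heq
  refine ⟨c, ?_⟩
  rw [h1] at hae
  filter_upwards [hae] with z hz
  refine rm_sn_inj hk (norm_nonneg _) hR.le ?_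
  rw [← hF c z.1, hz, ← h3, ha, h2, h3, h4, rm_H0 hk hn hR, inv_inv]

end Vale.Agent.P219.SA
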