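import Vale.Agent.P219.SR.RigFin
import Vale.Agent.P219.SA.Mid
import Vale.Agent.P219.End.Dim3Rig

/-! # The equality case on the limit, dimension three -/

open MeasureTheory Set Metric Filter Topology
open scoped ENNReal NNReal ContDiff

noncomputable section

namespace Vale.Agent.P219.SA

open Vale.Agent.P219.TP Vale.Agent.P219.TPH
open Vale.Agent.P219.End (FG KS)

variable {k : ℝ}

/-- The limit object in dimension three. -/
theorem three_lim (G : Geo 3) (hG : MonoSn G k) (hdf : DensFieldStmt 3) (hk : 0 ≤ k)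
    {o : E 3} {ρ : ℝ} (hρ : 0 < ρ) {I : ℝ → ℝ} {J R : ℝ} {U : Ultrafilter ℕ}
    {h : ℕ → E 3 → ℝ} {V : Measure (E 3 × E 3)} (hImono : MonotoneOn I (Ici 0))
    (hIcont : ContinuousOn I (Ici 0)) (hR : 0 < R)
    (hId : HasStrictDerivAt I (H0 3 k R) (VR 3 k R)) (hm : MinSeq G o ρ I J (VR 3 k R) U h)
    (hV : IsLim G o ρ U h V) (hne : 0 < V.real univ) :
    End.Dim3.L2 (H0 3 k R) (k ^ 2) G.A (FG G k) {x | ‖G.lg o x‖ ≤ ρ} V := by
  have := hV.fin
  have hVR : 0 < VR 3 k R := by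
    have h1 := (VR_strictMonoOn (n := 3) (k := k) (by omega) hk) (mem_Ici.2 le_rfl)
      (mem_Ici.2 hR.le) hR
    rwa [VR_zero] at h1
  have hae : ∀ᵐ z ∂V, ‖G.lg o z.1‖ ≤ ρ ∧ ‖z.2‖ = 1 := by
    have h1 : ∀ᵐ z ∂V, z ∈ KS G o ρ := by
      rw [ae_iff]
      exact hV.supp
    filter_upwards [h1] with z hz
    exact ⟨hz.1, by simpa using hz.2⟩
  have hVne : V ≠ 0 := by
    rintro rfl
    simp at hne
  have hst := stat_FG G (by omega) hk hG hk hR hImono hVR hId hm hV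
  have hde := dens_FG G hdf (by omega) hk hρ hImono hIcont hR hId hm hV
  have h3 : (((3 : ℕ) : ℝ) - 1) = 2 := by norm_num
  rw [h3] at hde
  refine ⟨this, by positivity, G.A_smooth.continuous, fun c => End.FG_smooth_right G k c,
    End.FG_nonneg G k, End.FG_self G k, End.FG_comm G k, fun c x hcx => End.FG_pos G k hk hcx,
    End.norm_D_FG G k, G.isCompact_gball o ρ, hae, hVne, ?_, hde⟩
  intro c hc ψ hψ hψ0
  have h4 := hst c hc ψ hψ hψ0
  unfold dF at h4
  rw [h3] at h4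
  exact h4

/-- The equality case on the limit in dimension three. -/
theorem limRig_three (hdf : DensFieldStmt 3) (hk : 0 ≤ k) : LimRig 3 k := by
  intro G hG o ρ I R U h V hρ hR hU hImono hIcont hI0 hIz hIR hId hm hVl hVp hVle
  have L := three_lim G hG hdf hk hρ hImono hIcont hR hId hm hVl hVp
  have hH : H0 3 k R ^ 2 / 4 - k ^ 2 = (TPH.sn k R ^ 2)⁻¹ := by
    have h1 := rm_H0 (n := 3) hk (by omega) hR
    have h2 : (((3 : ℕ) : ℝ) - 1) ^ 2 = 4 := by norm_num
    rwa [h2] at h1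
  have hsn : 0 < TPH.sn k R := TPH.sn_pos hk hR
  have hsg : sig 3 = 4 * Real.pi := by
    rw [← End.Dim3.sg_two, ← sg_eq_sig (n := 3) (by omega)]
    norm_num
  have heq : (H0 3 k R ^ 2 / 4 - k ^ 2) * V.real univ ≤ 4 * Real.pi := by
    have h1 : V.real univ ≤ 4 * Real.pi * TPH.sn k R ^ 2 := by
      rw [← hsg]
      exact hVle
    rw [hH]
    calc (TPH.sn k R ^ 2)⁻¹ * V.real univ
        ≤ (TPH.sn k R ^ 2)⁻¹ * (4 * Real.pi * TPH.sn k R ^ 2) :=
          mul_le_mul_of_nonneg_left h1 (by positivity)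
      _ = 4 * Real.pi := by field_simp
  obtain ⟨c, -, hae⟩ := L.rigid2 (fun p hp q hq => by
    obtain ⟨c, hc, h1⟩ := exists_mid G hk (End.snLe_of_monoSn G hG) hp hq
    exact ⟨c, hc, h1⟩) heq
  refine ⟨c, ?_⟩
  filter_upwards [hae] with z hz
  refine rm_sn_inj hk (norm_nonneg _) hR.le ?_
  rw [End.sn_sq_eq_FG G k c z.1, hz, hH, inv_inv]

end Vale.Agent.P219.SA
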